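import Crest.Agent.N41.Step.Core

/-!
# Row 41, module B5: the step, choice of the constants
-/

set_option autoImplicit false

namespace Crest.Agent.N41.Step

open Finset
open scoped BigOperators
open Local (Om ptA ptB tens RP)
open ES (proj qq res mem_low)

/-- the sum over the failure sets is small -/
lemma exists_sum_small (c : ℝ) (hc : 1 ≤ c) : ∃ p : ℕ, ∀ (ι : Type) [Fintype ι] [DecidableEq ι]
    (q : ι → ℕ), (∀ i, p ≤ q i) → Function.Injective (qq q) →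
    ∑ S ∈ univ.erase (∅ : Finset ι), 1 / (qq q S : ℝ) ^ 2 * (c ^ S.card * √(qq q S)) ≤ 1 / 8 := by
  have hsum : Summable fun n : ℕ => (n : ℝ) ^ (-(5 / 4) : ℝ) :=
    Real.summable_nat_rpow.2 (by norm_num)
  obtain ⟨s, hs⟩ := hsum.vanishing (e := Set.Iio (1 / 8)) (Iio_mem_nhds (by norm_num))
  refine ⟨max (s.sup id + 1) ⌈c ^ 4⌉₊, fun ι _ _ q hq hinj => ?_⟩
  have hq1 : ∀ i, 1 ≤ q i := fun i => le_trans (by omega) ((le_max_left _ _).trans (hq i))
  have hd : Disjoint ((univ.erase (∅ : Finset ι)).image (qq q)) s := by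
    refine disjoint_left.2 fun n hn hns => ?_
    obtain ⟨S, hS, rfl⟩ := mem_image.1 hn
    obtain ⟨i, hi⟩ := nonempty_iff_ne_empty.2 (ne_of_mem_erase hS)
    have h1 : q i ≤ qq q S := Nat.le_of_dvd (ES.one_le_qq hq1 S) (ES.dvd_qq q hi)
    have h2 : qq q S ≤ s.sup id := le_sup (f := id) hns
    have h3 := (le_max_left _ _).trans (hq i)
    omega
  have h := hs _ hd
  rw [sum_image hinj.injOn] at h
  refine le_trans (sum_le_sum fun S _ => ?_) (le_of_lt h)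
  have hn : (0 : ℝ) < qq q S := by exact_mod_cast ES.one_le_qq hq1 S
  have h1 : (c ^ S.card) ^ 4 ≤ qq q S := by
    rw [← pow_mul, mul_comm, pow_mul]
    have h2 : (⌈c ^ 4⌉₊ : ℝ) ^ S.card ≤ qq q S := by
      exact_mod_cast ES.pow_card_le_qq (fun i => (le_max_right _ _).trans (hq i)) S
    exact (pow_le_pow_left₀ (by positivity) (Nat.le_ceil _) _).trans h2
  have h2 : c ^ S.card ≤ (qq q S : ℝ) ^ (1 / 4 : ℝ) := by
    rw [one_div, Real.le_rpow_inv_iff_of_pos (by positivity) hn.le (by norm_num)]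
    exact_mod_cast h1
  have h3 : (qq q S : ℝ) ^ (-(5 / 4) : ℝ) =
      1 / (qq q S : ℝ) ^ 2 * ((qq q S : ℝ) ^ (1 / 4 : ℝ) * √(qq q S)) := by
    rw [Real.sqrt_eq_rpow, ← Real.rpow_add hn, one_div ((qq q S : ℝ) ^ 2), ← Real.rpow_natCast,
      ← Real.rpow_neg hn.le, ← Real.rpow_add hn]
    norm_num
  rw [h3]
  gcongr

/-- the constant of the moment bound is a small power -/
lemma exists_pow_small (C θ : ℝ) (A : ℕ) (hC : 1 ≤ C) (hθ : 0 < θ) : ∃ (p : ℕ) (Z₀ : ℝ), 2 ≤ p ∧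
    ∀ Z : ℝ, Z₀ ≤ Z → 1 ≤ Z → C ^ (Nat.log p ⌊Z ^ A⌋₊ + 1) ≤ Z ^ θ := by
  obtain ⟨n, hn⟩ := exists_nat_gt (2 * A / θ)
  have hn0 : (0 : ℝ) < n := lt_of_le_of_lt (by positivity) hn
  refine ⟨max 2 ⌈C ^ n⌉₊, C ^ (2 / θ), le_max_left _ _, fun Z hZ hZ1 => ?_⟩
  set p := max 2 ⌈C ^ n⌉₊ with hp
  set d := Nat.log p ⌊Z ^ A⌋₊ with hd
  have hZA : (1 : ℝ) ≤ Z ^ A := one_le_pow₀ hZ1
  have h1 : (p : ℝ) ^ d ≤ Z ^ A := by
    have h : p ^ d ≤ ⌊Z ^ A⌋₊ := Nat.pow_log_le_self p (Nat.floor_pos.2 hZA).ne'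
    exact le_trans (by exact_mod_cast h) (Nat.floor_le (by positivity))
  have h2 : C ^ n ≤ p := (Nat.le_ceil _).trans (by exact_mod_cast le_max_right _ _)
  have h3 : (C ^ d) ^ n ≤ Z ^ A := by
    rw [← pow_mul, mul_comm, pow_mul]
    exact (pow_le_pow_left₀ (by positivity) h2 _).trans h1
  have h4 : C ^ d ≤ Z ^ (θ / 2) := by
    have h5 : Z ^ A ≤ (Z ^ (θ / 2)) ^ n := by
      rw [← Real.rpow_natCast (Z ^ (θ / 2)), ← Real.rpow_mul (by linarith), ← Real.rpow_natCast]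
      refine Real.rpow_le_rpow_of_exponent_le hZ1 ?_
      rw [div_lt_iff₀ hθ] at hn
      linarith
    exact (pow_le_pow_iff_left₀ (by positivity) (by positivity) (by exact_mod_cast hn0.ne')).1
      (h3.trans h5)
  have h5 : C ≤ Z ^ (θ / 2) := by
    have h6 := Real.rpow_le_rpow (by positivity) hZ (by positivity : 0 ≤ θ / 2)
    rwa [← Real.rpow_mul (by linarith), show 2 / θ * (θ / 2) = 1 by field_simp,
      Real.rpow_one] at h6
  calc C ^ (d + 1) = C ^ d * C := pow_succ _ _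
    _ ≤ Z ^ (θ / 2) * Z ^ (θ / 2) := by gcongr
    _ = Z ^ θ := by rw [← Real.rpow_add (by linarith)]; ring_nf

/-- **Module B5** from the moment bound, the tail bound and the bound of the `nf` term -/
theorem step_of (hc : HCStmt) (tl : TailStmt) (hnf : NFStmt) : StepStmt := by
  intro D κ hD hκ
  obtain ⟨C, hC, hHC⟩ := hc (6 ^ D)
  set m : ℝ := min κ (1 / 2) with hm
  have hm0 : 0 < m := lt_min hκ (by norm_num)
  have hm1 : m ≤ κ := min_le_left _ _
  have hm2 : m ≤ 1 / 2 := min_le_right _ _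
  obtain ⟨K, hK⟩ := exists_nat_gt ((20 * 6 ^ D + 4) / κ)
  have hK1 : 1 ≤ K := by
    have : (0 : ℝ) < K := lt_of_le_of_lt (by positivity) hK
    exact_mod_cast this
  obtain ⟨p₁, hp₁⟩ := exists_sum_small (12 ^ 6 ^ D) (one_le_pow₀ (by norm_num))
  obtain ⟨p₂, Z₁, hp₂, hZ₁⟩ := exists_pow_small C (m / 4) (K + 2 * 6 ^ D) hC (by positivity)
  refine ⟨K, (K + 2 * 6 ^ D) * 2, m / 2, (max p₁ p₂ : ℕ), max 2 (max Z₁ (16 ^ (4 / m))), hK1,
    by positivity, le_max_left _ _, ?_⟩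
  intro ι _ _ V _ _ _ q ρ β ν nf kap Z hZ hq hinj hcard hν hρ
  have hZ2 : 2 ≤ Z := (le_max_left _ _).trans hZ
  have hZ1 : 1 ≤ Z := by linarith
  have hZ0 : 0 < Z := by linarith
  have hqp : ∀ i, max p₁ p₂ ≤ q i := fun i => by exact_mod_cast hq i
  have hq2 : ∀ i, p₂ ≤ q i := fun i => (le_max_right _ _).trans (hqp i)
  have hq1 : ∀ i, 1 ≤ q i := fun i => le_trans (by omega) (hq2 i)
  set M : ℝ := Z ^ (K + 2 * 6 ^ D) with hM
  have hr : 1 ≤ 6 ^ D := Nat.one_le_pow _ _ (by norm_num)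
  have hM2 : Z ^ 2 ≤ M := pow_le_pow_right₀ hZ1 (by omega)
  have hM1 : 1 ≤ M := one_le_pow₀ hZ1
  have hB := hZ₁ Z ((le_max_left _ _).trans ((le_max_right _ _).trans hZ)) hZ1
  have h16 : 16 ≤ Z ^ (m / 4) := by
    have h6 := Real.rpow_le_rpow (by positivity)
      ((le_max_right _ _).trans ((le_max_right _ _).trans hZ)) (by positivity : 0 ≤ m / 4)
    rwa [← Real.rpow_mul (by norm_num), show 4 / m * (m / 4) = 1 by field_simp,
      Real.rpow_one] at h6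
  have hT : ∀ (g : Om D → (∀ i, V i) → ℝ) (ω₀ : Om D) (y : ℝ), 1 ≤ y → (∀ ω, Mod q M 1 (g ω)) →
      Mod q M y (g ω₀) → |Lam ν g| ≤ y ^ (-κ) * Z ^ (m / 4) := by
    intro g ω₀ y hy h1 h2
    obtain ⟨f, U, s, F, -, -, hF, hg⟩ := h2
    refine tl D ι V ν ρ hD hν ω₀ g _ F _ _ hg (by positivity) (fun T hT => ?_) (by linarith)
      fun ω => ?_
    · rw [prod_pow]
      refine pow_le_pow_left₀ (prod_nonneg fun i _ => (hρ i).1) ?_ _
      refine (prod_le_prod (fun i _ => (hρ i).1) fun i _ => (hρ i).2).trans ?_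
      rw [Real.finsetProd_rpow _ _ fun i _ => by positivity]
      refine Real.rpow_le_rpow_of_nonpos (by linarith) ?_ (by linarith)
      simpa [qq] using (hF T hT).2.1
    · obtain ⟨f, U, s, F, hf, hU, hF, hg⟩ := h1 ω
      rw [hg]
      refine (hHC ι V q M f U s F (Nat.log p₂ ⌊M⌋₊) hq1 hf hU fun T hT =>
        ⟨(hF T hT).1, (hF T hT).2.2, ?_⟩).trans hB
      exact Nat.le_log_of_pow_le (by omega)
        ((ES.pow_card_le_qq hq2 T).trans (Nat.le_floor (hF T hT).2.2))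
  have hT1 : ∀ g : Om D → (∀ i, V i) → ℝ, (∀ ω, Mod q M 1 (g ω)) → |Lam ν g| ≤ Z ^ (m / 4) := by
    intro g h
    simpa using hT g (ptA D) 1 le_rfl h (h _)
  refine ⟨fun f hf => ?_, fun hs hβ f Y hf hY h0 hp => ?_⟩
  · rw [pow_mul] at hf
    have h := mod_low (S := ∅) (W := ∅) hq1 hf Subset.rfl (by simpa using hM1) hM2 0
    rw [ES.res_empty] at h
    refine (le_abs_self _).trans ((hT1 _ fun _ => h).trans (le_of_eq ?_))
    congr 1; ring
  · have hf' : ∀ ω, Glob q (M ^ 2) (f ω) := fun ω => by have := hf ω; rwa [pow_mul] at this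
    have hY0 : 0 ≤ Y := le_trans (by positivity) hY
    refine core hD hν hs hβ hq1 hZ1 hY0 hM2 (fun g h => (hT1 g h).trans ?_)
      (fun g ω₀ h1 h2 => (hT g ω₀ Z hZ1 h1 h2).trans ?_)
      (hp₁ ι q (fun i => (le_max_left _ _).trans (hqp i)) hinj) hf' h0 ?_
    · refine le_trans ?_ (mul_le_mul_of_nonneg_right hY (Real.sqrt_nonneg _))
      rw [Real.sqrt_eq_rpow, ← Real.rpow_add hZ0]
      exact Real.rpow_le_rpow_of_exponent_le hZ1 (by linarith)
    · rw [le_div_iff₀ (by norm_num)]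
      refine le_trans ?_ hY
      calc Z ^ (-κ) * Z ^ (m / 4) * 16 ≤ Z ^ (-κ) * Z ^ (m / 4) * Z ^ (m / 4) := by gcongr
        _ = Z ^ (-κ + m / 4 + m / 4) := by rw [Real.rpow_add hZ0, Real.rpow_add hZ0]
        _ ≤ _ := Real.rpow_le_rpow_of_exponent_le hZ1 (by linarith)
    · refine (hnf D K κ hD hκ ι V q ρ β ν nf kap Z f hZ2 (fun i => hp₂.trans (hq2 i)) hinj hcard hν
        hρ hs (fun ω => (hf' ω).mono (by nlinarith)) hp).trans ?_
      rw [le_div_iff₀ (by norm_num)]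
      refine le_trans ?_ hY
      have h8 : (8 : ℝ) ≤ Z ^ (3 : ℝ) := by
        have := pow_le_pow_left₀ (by norm_num) hZ2 3
        rw [← Real.rpow_natCast Z] at this
        norm_num at this ⊢
        exact this
      rw [div_lt_iff₀ hκ] at hK
      calc Z ^ (20 * 6 ^ D) * (Z ^ K) ^ (-κ) * 8
          ≤ Z ^ (20 * 6 ^ D) * (Z ^ K) ^ (-κ) * Z ^ (3 : ℝ) := by gcongr
        _ = Z ^ (((20 * 6 ^ D : ℕ) : ℝ) + K * (-κ) + 3) := by
            rw [Real.rpow_add hZ0, Real.rpow_add hZ0, Real.rpow_natCast, Real.rpow_mul hZ0.le,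
              Real.rpow_natCast]
        _ ≤ _ := by
            refine Real.rpow_le_rpow_of_exponent_le hZ1 ?_
            push_cast
            linarith

end Crest.Agent.N41.Step
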