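import Crest.Agent.N41.Step.Defs
import Crest.Agent.N41.ES.Res
import Crest.Agent.N41.Local.Norm

/-!
# Row 41, module B5: the combinatorial core of the step

Raising the cut-offs, inclusion–exclusion for `∏ nf = ∏ (ν - fail)`, and the fibre bound of the
failure terms.  No asymptotics here: the tail bounds are hypotheses.
-/

set_option autoImplicit false

namespace Crest.Agent.N41.Step

open Finset
open scoped BigOperators
open Local (Om ptA ptB tens RP)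
open ES (proj qq res mem_low)

variable {D : ℕ} {ι : Type} [Fintype ι] [DecidableEq ι] {V : ι → Type} [∀ i, Fintype (V i)]

/-- `g` is a truncated model of a fibre of a global function, with conductors in `[y, M]` -/
def Mod (q : ι → ℕ) (M y : ℝ) (g : (∀ i, V i) → ℝ) : Prop :=
  ∃ (f : (∀ i, V i) → ℝ) (U : Finset ι) (s : ∀ i, V i) (F : Finset (Finset ι)),
    Glob q (M ^ 2) f ∧ (qq q U : ℝ) ≤ M ∧
    (∀ T ∈ F, Disjoint T U ∧ y ≤ (qq q T : ℝ) ∧ (qq q T : ℝ) ≤ M) ∧ g = proj F (res U s f)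

lemma Mod.mono {q : ι → ℕ} {M y y' : ℝ} {g : (∀ i, V i) → ℝ} (h : Mod q M y g) (hy : y' ≤ y) :
    Mod q M y' g := by
  obtain ⟨f, U, s, F, h1, h2, h3, h4⟩ := h
  exact ⟨f, U, s, F, h1, h2, fun T hT => ⟨(h3 T hT).1, hy.trans (h3 T hT).2.1, (h3 T hT).2.2⟩, h4⟩

lemma mod_low {q : ι → ℕ} (hq : ∀ i, 1 ≤ q i) {M y : ℝ} {f : (∀ i, V i) → ℝ}
    (hf : Glob q (M ^ 2) f) {S W : Finset ι} (hW : W ⊆ S) (hWM : (qq q W : ℝ) ≤ M) (hy : y ≤ M)
    (s : ∀ i, V i) : Mod q M 1 (proj (low q S y) (res W s f)) :=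
  ⟨f, W, s, _, hf, hWM, fun T hT => ⟨(mem_low.1 hT).1.mono_right hW,
    by exact_mod_cast ES.one_le_qq hq T, (mem_low.1 hT).2.trans hy⟩, rfl⟩

lemma mod_sdiff {q : ι → ℕ} {M y y' Z : ℝ} {f : (∀ i, V i) → ℝ}
    (hf : Glob q (M ^ 2) f) {S W : Finset ι} (hW : W ⊆ S) (hWM : (qq q W : ℝ) ≤ M) (hy : y ≤ M)
    (hy' : Z ≤ y') (s : ∀ i, V i) : Mod q M Z (proj (low q S y \ low q S y') (res W s f)) := by
  refine ⟨f, W, s, _, hf, hWM, fun T hT => ?_, rfl⟩
  obtain ⟨h1, h2⟩ := mem_sdiff.1 hT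
  have h3 := mem_low.1 h1
  refine ⟨h3.1.mono_right hW, hy'.trans (le_of_not_ge fun h => h2 (mem_low.2 ⟨h3.1, h⟩)),
    h3.2.trans hy⟩

lemma proj_eq_add_sub (F G : Finset (Finset ι)) (f : (∀ i, V i) → ℝ) (x : ∀ i, V i) :
    proj F f x = proj G f x + proj (F \ G) f x - proj (G \ F) f x := by
  have h1 := ES.proj_sdiff (inter_subset_left (s₂ := G) (s₁ := F)) f x
  have h2 := ES.proj_sdiff (inter_subset_right (s₂ := G) (s₁ := F)) f x
  rw [sdiff_inter_self_left] at h1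
  rw [sdiff_inter_self_right] at h2
  linarith

/-- the functional of a weight which agrees with a probability product law outside `S` is a
mixture of functionals of fibres -/
lemma Lam_fibre {ν μ : ∀ i, (Om D → V i) → ℝ} (h1 : ∑ x, tens ν x = 1) {S : Finset ι}
    (hμ : ∀ i, i ∉ S → μ i = ν i) (g : Om D → (∀ i, V i) → ℝ) :
    Local.Lam (tens μ) g = ∑ s, tens μ s * Lam ν fun ω => res S (s ω) (g ω) := by
  classical
  set pw : (Om D → ∀ i, V i) → (Om D → ∀ i, V i) → (Om D → ∀ i, V i) :=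
    fun s x ω => S.piecewise (s ω) (x ω) with hpw
  have hinv : Function.Involutive
      fun p : (Om D → ∀ i, V i) × (Om D → ∀ i, V i) => (pw p.1 p.2, pw p.2 p.1) := by
    intro p
    refine Prod.ext ?_ ?_ <;> funext ω i <;> by_cases hi : i ∈ S <;> simp [hpw, hi]
  have hw : ∀ s x, tens μ (pw s x) * tens ν (pw x s) = tens μ s * tens ν x := by
    intro s x
    unfold tens
    rw [← prod_mul_distrib, ← prod_mul_distrib]
    refine prod_congr rfl fun i _ => ?_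
    by_cases hi : i ∈ S
    · simp [hpw, hi]
    · simp [hpw, hi, hμ i hi, mul_comm]
  calc Local.Lam (tens μ) g
      = ∑ p : (Om D → ∀ i, V i) × (Om D → ∀ i, V i),
          tens μ p.1 * tens ν p.2 * ∏ c, g c (p.1 c) := by
        rw [Fintype.sum_prod_type]
        refine sum_congr rfl fun u _ => ?_
        simp only
        rw [← sum_mul, ← mul_sum, h1, mul_one]
    _ = ∑ p : (Om D → ∀ i, V i) × (Om D → ∀ i, V i),
          tens μ p.1 * tens ν p.2 * ∏ c, g c (pw p.1 p.2 c) := by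
        refine (Fintype.sum_equiv hinv.toPerm _ _ fun p => ?_).symm
        simp only [Function.Involutive.coe_toPerm, hw]
    _ = _ := by
        rw [Fintype.sum_prod_type]
        refine sum_congr rfl fun s _ => ?_
        unfold Lam Local.Lam
        rw [mul_sum]
        exact sum_congr rfl fun x _ => by rw [mul_assoc]; rfl

/-- the weight with `nf - ν` on `S` and `ν` outside -/
def mix (ν nf : ∀ i, (Om D → V i) → ℝ) (S : Finset ι) (i : ι) : (Om D → V i) → ℝ :=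
  if i ∈ S then fun y => nf i y - ν i y else ν i

lemma Lam_incl_excl (ν nf : ∀ i, (Om D → V i) → ℝ) (g : Om D → (∀ i, V i) → ℝ) :
    Local.Lam (tens nf) g = ∑ S : Finset ι, Local.Lam (tens (mix ν nf S)) g := by
  unfold Local.Lam
  rw [sum_comm]
  refine sum_congr rfl fun x _ => ?_
  rw [← sum_mul]
  congr 1
  have h : tens nf x = ∏ i, ((nf i (fun c => x c i) - ν i fun c => x c i) + ν i fun c => x c i) :=
    prod_congr rfl fun i _ => by ring
  rw [h, prod_add, powerset_univ]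
  refine sum_congr rfl fun S _ => ?_
  unfold tens
  rw [← prod_mul_prod_compl S, ← compl_eq_univ_sdiff]
  congr 1
  · exact prod_congr rfl fun i hi => by simp [mix, hi]
  · exact prod_congr rfl fun i hi => by simp [mix, mem_compl.1 hi]

section Law
variable [∀ i, AddCommGroup (V i)] {ν nf : ∀ i, (Om D → V i) → ℝ} {ρ β : ι → ℝ}
  {kap : ∀ i, V i → ℝ} {q : ι → ℕ}

lemma sum_abs_mix (hν : ∀ i, Law (ν i) (ρ i)) (hs : ∀ i, Split (ν i) (nf i) (kap i) (ρ i) (β i))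
    (hβ : ∀ i, β i ≤ 1 / (q i : ℝ) ^ 2) (S : Finset ι) :
    ∑ s, |tens (mix ν nf S) s| ≤ 1 / (qq q S : ℝ) ^ 2 := by
  have h1 : ∑ s, |tens (mix ν nf S) s| = ∏ i, ∑ y, |mix ν nf S i y| := by
    rw [← Local.sum_tens_prod fun i y => |mix ν nf S i y|]
    exact sum_congr rfl fun s _ => abs_prod _ _
  have h2 : (1 : ℝ) / (qq q S : ℝ) ^ 2 = ∏ i, if i ∈ S then 1 / (q i : ℝ) ^ 2 else 1 := by
    rw [prod_ite_mem, univ_inter, prod_div_distrib, prod_const_one, prod_pow]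
    simp [qq]
  rw [h1, h2]
  refine prod_le_prod (fun i _ => sum_nonneg fun _ _ => abs_nonneg _) fun i _ => ?_
  by_cases hi : i ∈ S
  · simp only [mix, hi, if_true]
    refine le_trans (le_of_eq ?_) ((hs i).fail_le.trans (hβ i))
    exact sum_congr rfl fun y _ => by
      rw [abs_sub_comm, abs_of_nonneg (sub_nonneg.2 ((hs i).nf_le y))]
  · simp only [mix, hi, if_false]
    refine le_of_eq ?_
    rw [← (hν i).sum_one]
    exact sum_congr rfl fun y _ => abs_of_nonneg ((hν i).nonneg y)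

/-- the failure terms -/
lemma abs_Lam_mix_le (hν : ∀ i, Law (ν i) (ρ i))
    (hs : ∀ i, Split (ν i) (nf i) (kap i) (ρ i) (β i)) (hβ : ∀ i, β i ≤ 1 / (q i : ℝ) ^ 2)
    (S : Finset ι) (g : Om D → (∀ i, V i) → ℝ) {A : ℝ} (hA : 0 ≤ A)
    (hg : ∀ s : Om D → ∀ i, V i, |Lam ν fun ω => res S (s ω) (g ω)| ≤ A) :
    |Local.Lam (tens (mix ν nf S)) g| ≤ 1 / (qq q S : ℝ) ^ 2 * A := by
  rw [Lam_fibre (Local.tens_sum_one hν) (S := S) (fun i hi => by simp [mix, hi]) g]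
  refine (abs_sum_le_sum_abs _ _).trans ?_
  refine le_trans ?_ (mul_le_mul_of_nonneg_right (sum_abs_mix hν hs hβ S) hA)
  rw [sum_mul]
  exact sum_le_sum fun s _ => by
    rw [abs_mul]; exact mul_le_mul_of_nonneg_left (hg s) (abs_nonneg _)

/-- raising the cut-off at one point -/
lemma raise (hq : ∀ i, 1 ≤ q i) {M Z E : ℝ} (hM : 1 ≤ M)
    (hT : ∀ (g : Om D → (∀ i, V i) → ℝ) (ω₀ : Om D), (∀ ω, Mod q M 1 (g ω)) → Mod q M Z (g ω₀) →
      |Lam ν g| ≤ E) (hZ : 1 ≤ Z)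
    {f : Om D → (∀ i, V i) → ℝ} (hf : ∀ ω, Glob q (M ^ 2) (f ω)) (y y' : Om D → ℝ) (ω₀ : Om D)
    (hy : ∀ ω, ω ≠ ω₀ → y ω = y' ω) (hy' : ∀ ω, y' ω ≤ M) (h0 : Z ≤ y ω₀) (h1 : y ω₀ ≤ y' ω₀) :
    |(Lam ν fun ω => proj (low q ∅ (y' ω)) (f ω)) - Lam ν fun ω => proj (low q ∅ (y ω)) (f ω)|
      ≤ E := by
  set g : Om D → (∀ i, V i) → ℝ := fun ω => proj (low q ∅ (y' ω)) (f ω) with hg
  set u := proj (low q ∅ (y ω₀)) (f ω₀) with hu
  set v := proj (low q ∅ (y' ω₀) \ low q ∅ (y ω₀)) (f ω₀) with hv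
  have e1 : g = Function.update g ω₀ fun t => u t + v t := by
    funext ω
    by_cases h : ω = ω₀
    · subst h
      rw [Function.update_self]
      funext t
      exact ES.proj_sdiff (ES.low_mono q ∅ h1) _ t
    · rw [Function.update_of_ne h]
  have e2 : (fun ω => proj (low q ∅ (y ω)) (f ω)) = Function.update g ω₀ u := by
    funext ω
    by_cases h : ω = ω₀
    · subst h; rw [Function.update_self]
    · rw [Function.update_of_ne h, hy ω h]
  have e3 : Lam ν g = Lam ν (Function.update g ω₀ u) + Lam ν (Function.update g ω₀ v) := by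
    conv_lhs => rw [e1]
    exact Local.Lam_update_add _ _ _ _ _
  have hq0 : (qq q (∅ : Finset ι) : ℝ) ≤ M := by simpa using hM
  have hv' : Mod q M Z v := by
    have := mod_sdiff (S := ∅) (W := ∅) (hf ω₀) Subset.rfl hq0 (hy' ω₀) h0 0
    rwa [ES.res_empty] at this
  rw [e2, e3, add_sub_cancel_left]
  refine hT _ ω₀ (fun ω => ?_) (by rw [Function.update_self]; exact hv')
  by_cases h : ω = ω₀
  · subst h; rw [Function.update_self]; exact hv'.mono hZ
  · rw [Function.update_of_ne h]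
    have := mod_low (S := ∅) (W := ∅) hq (hf ω) Subset.rfl hq0 (hy' ω) 0
    rwa [ES.res_empty] at this

/-- one of the terms of the restriction of a truncated model -/
lemma term_le (hD : 1 ≤ D) (hν : ∀ i, Law (ν i) (ρ i)) (hq : ∀ i, 1 ≤ q i) {M Z Y R y : ℝ}
    (hZ : 1 ≤ Z) (hY : 0 ≤ Y) (hR : 0 ≤ R) (hy1 : Z ^ 2 ≤ y) (hy2 : y ≤ M)
    (hT1 : ∀ g : Om D → (∀ i, V i) → ℝ, (∀ ω, Mod q M 1 (g ω)) → |Lam ν g| ≤ Y * √Z)
    (hT2 : ∀ (g : Om D → (∀ i, V i) → ℝ) (ω₀ : Om D), (∀ ω, Mod q M 1 (g ω)) → Mod q M Z (g ω₀) →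
      |Lam ν g| ≤ Y)
    {f : (∀ i, V i) → ℝ} (hf : Glob q (M ^ 2) f) {S U W : Finset ι} (hU : U ⊆ S) (hW : W ⊆ U)
    (s : ∀ i, V i) (hRS : Y * √(qq q S) ≤ R ^ 6 ^ D)
    (h0 : (qq q S : ℝ) ≤ Z →
      (Lam ν fun _ => proj (low q S (Z ^ 2)) (res W s f)) ≤ Y * √(qq q S)) :
    (Lam ν fun _ => proj (low q S (y / qq q U)) (res W s f)) ≤ (3 * R) ^ 6 ^ D := by
  have hqU : (1 : ℝ) ≤ qq q U := by exact_mod_cast ES.one_le_qq hq U
  have hqS : (1 : ℝ) ≤ qq q S := by exact_mod_cast ES.one_le_qq hq S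
  have hUS : (qq q U : ℝ) ≤ qq q S := by exact_mod_cast ES.qq_mono hq hU
  have hWU : (qq q W : ℝ) ≤ qq q U := by exact_mod_cast ES.qq_mono hq hW
  have hZ2 : Z ≤ Z ^ 2 := by nlinarith
  have hy0 : 0 ≤ y := by linarith
  have hyM : y / qq q U ≤ M := (div_le_self hy0 hqU).trans hy2
  have h3 : R ^ 6 ^ D ≤ (3 * R) ^ 6 ^ D := pow_le_pow_left₀ hR (by linarith) _
  by_cases hS : (qq q S : ℝ) ≤ Z
  · have hWM : (qq q W : ℝ) ≤ M := by linarith
    have hyZ : Z ≤ y / qq q U := by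
      rw [le_div_iff₀ (by linarith)]; nlinarith
    have hYR : Y ≤ R ^ 6 ^ D := by
      refine le_trans ?_ hRS
      exact le_mul_of_one_le_right hY (Real.one_le_sqrt.2 hqS)
    have ha := mod_sdiff (y := y / qq q U) hf (hW.trans hU) hWM hyM hZ2 s
    have hb := mod_sdiff (y := Z ^ 2) hf (hW.trans hU) hWM (hy1.trans hy2) hyZ s
    have ha' := (le_abs_self _).trans ((hT2 _ (ptA D) (fun _ => ha.mono hZ) ha).trans hYR)
    have hb' := (le_abs_self _).trans ((hT2 _ (ptA D) (fun _ => hb.mono hZ) hb).trans hYR)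
    have := (Local.tens_rp hν).Lam_sum_le hD (univ : Finset (Fin 3)) ![1, 1, -1]
      ![proj (low q S (Z ^ 2)) (res W s f),
        proj (low q S (y / qq q U) \ low q S (Z ^ 2)) (res W s f),
        proj (low q S (Z ^ 2) \ low q S (y / qq q U)) (res W s f)] (fun _ => R) (fun _ _ => hR)
      (by
        intro j _
        fin_cases j
        · exact (h0 hS).trans hRS
        · exact ha'
        · exact hb')
    refine le_trans (le_of_eq ?_) (this.trans (le_of_eq ?_))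
    · refine congrArg (Local.Lam (tens ν)) ?_
      funext _ v
      rw [proj_eq_add_sub _ (low q S (Z ^ 2))]
      simp [Fin.sum_univ_three]
      ring
    · congr 1
      simp [Fin.sum_univ_three]
      ring
  · have hm : Mod q M 1 (proj (low q S (y / qq q U)) (res W s f)) := by
      by_cases hy : (qq q U : ℝ) ≤ y
      · exact mod_low hq hf (hW.trans hU) (by linarith) hyM s
      · have he : low q S (y / qq q U) = ∅ := by
          refine eq_empty_of_forall_notMem fun T hT => ?_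
          have h1 : (1 : ℝ) ≤ qq q T := by exact_mod_cast ES.one_le_qq hq T
          have h2 := (le_div_iff₀ (by linarith)).1 (h1.trans (mem_low.1 hT).2)
          exact hy (by linarith)
        refine ⟨f, ∅, s, ∅, hf, by simp; linarith, by simp, ?_⟩
        rw [he]; funext x; simp [proj]
    refine (le_abs_self _).trans ((hT1 _ fun _ => hm).trans (le_trans ?_ (hRS.trans h3)))
    exact mul_le_mul_of_nonneg_left (Real.sqrt_le_sqrt (le_of_not_ge hS)) hY

/-- the functional of the fibres of the raised tuple -/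
lemma fibre_le (hD : 1 ≤ D) (hν : ∀ i, Law (ν i) (ρ i)) (hq : ∀ i, 1 ≤ q i) {M Z Y : ℝ}
    (hZ : 1 ≤ Z) (hY : 0 ≤ Y) {y : Om D → ℝ} (hy1 : ∀ ω, Z ^ 2 ≤ y ω) (hy2 : ∀ ω, y ω ≤ M)
    (hT1 : ∀ g : Om D → (∀ i, V i) → ℝ, (∀ ω, Mod q M 1 (g ω)) → |Lam ν g| ≤ Y * √Z)
    (hT2 : ∀ (g : Om D → (∀ i, V i) → ℝ) (ω₀ : Om D), (∀ ω, Mod q M 1 (g ω)) → Mod q M Z (g ω₀) →
      |Lam ν g| ≤ Y)
    {f : Om D → (∀ i, V i) → ℝ} (hf : ∀ ω, Glob q (M ^ 2) (f ω)) {S : Finset ι} (hS : S.Nonempty)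
    (h0 : ∀ (ω : Om D) (W : Finset ι) (s : ∀ i, V i), W ⊆ S → (qq q S : ℝ) ≤ Z →
      (Lam ν fun _ => proj (low q S (Z ^ 2)) (res W s (f ω))) ≤ Y * √(qq q S))
    (s : Om D → ∀ i, V i) :
    |Lam ν fun ω => res S (s ω) (proj (low q ∅ (y ω)) (f ω))| ≤
      ((12 : ℝ) ^ 6 ^ D) ^ S.card * (Y * √(qq q S)) := by
  set R : ℝ := (Y * √(qq q S)) ^ ((6 ^ D : ℕ) : ℝ)⁻¹ with hR
  have hR0 : 0 ≤ R := Real.rpow_nonneg (by positivity) _
  have hRr : R ^ 6 ^ D = Y * √(qq q S) := Real.rpow_inv_natCast_pow (by positivity) (by positivity)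
  set J : Finset (Σ _ : Finset ι, Finset ι) := S.powerset.sigma fun U => U.powerset with hJ
  have e : (fun ω => res S (s ω) (proj (low q ∅ (y ω)) (f ω))) = fun ω v => ∑ j ∈ J,
      (-1 : ℝ) ^ (j.1 \ j.2).card * proj (low q S (y ω / qq q j.1)) (res j.2 (s ω) (f ω)) v := by
    funext ω v
    rw [ES.res_proj_low hq, hJ, sum_sigma]
  have hc : (J.card : ℝ) ≤ 4 ^ S.card := by
    have h1 : J.card ≤ S.powerset.card * 2 ^ S.card := by
      rw [hJ, card_sigma, ← smul_eq_mul]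
      refine sum_le_card_nsmul _ _ _ fun U hU => ?_
      rw [card_powerset]
      exact Nat.pow_le_pow_right (by norm_num) (card_le_card (mem_powerset.1 hU))
    rw [card_powerset, ← mul_pow] at h1
    exact_mod_cast h1
  rw [e]
  refine ((Local.tens_rp hν).abs_Lam_sum_le hD (fun _ => J)
    (fun _ j => (-1 : ℝ) ^ (j.1 \ j.2).card)
    (fun ω j => proj (low q S (y ω / qq q j.1)) (res j.2 (s ω) (f ω))) (fun _ _ => 3 * R)
    (fun _ _ _ => by positivity) fun ω j hj => ?_).trans ?_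
  · obtain ⟨h1, h2⟩ := mem_sigma.1 hj
    exact term_le hD hν hq hZ hY hR0 (hy1 ω) (hy2 ω) hT1 hT2 (hf ω) (mem_powerset.1 h1)
      (mem_powerset.1 h2) (s ω) hRr.ge
      (h0 ω _ _ ((mem_powerset.1 h2).trans (mem_powerset.1 h1)))
  · simp only [abs_pow, abs_neg, abs_one, one_pow, one_mul, sum_const, nsmul_eq_mul, prod_const,
      card_univ, Local.card_Om]
    rw [← hRr, ← pow_mul, mul_comm (6 ^ D), pow_mul, ← mul_pow]
    refine pow_le_pow_left₀ (by positivity) ?_ _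
    have h3 : (3 : ℝ) ≤ 3 ^ S.card := le_self_pow₀ (by norm_num) hS.card_pos.ne'
    have h12 : (12 : ℝ) ^ S.card = 4 ^ S.card * 3 ^ S.card := by rw [← mul_pow]; norm_num
    rw [h12, mul_assoc]
    gcongr

/-- the step without asymptotics -/
theorem core (hD : 1 ≤ D) (hν : ∀ i, Law (ν i) (ρ i))
    (hs : ∀ i, Split (ν i) (nf i) (kap i) (ρ i) (β i)) (hβ : ∀ i, β i ≤ 1 / (q i : ℝ) ^ 2)
    (hq : ∀ i, 1 ≤ q i) {M Z Y : ℝ} (hZ : 1 ≤ Z) (hY : 0 ≤ Y) (hM : Z ^ 2 ≤ M)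
    (hT1 : ∀ g : Om D → (∀ i, V i) → ℝ, (∀ ω, Mod q M 1 (g ω)) → |Lam ν g| ≤ Y * √Z)
    (hT2 : ∀ (g : Om D → (∀ i, V i) → ℝ) (ω₀ : Om D), (∀ ω, Mod q M 1 (g ω)) → Mod q M Z (g ω₀) →
      |Lam ν g| ≤ Y / 16)
    (hsum : ∑ S ∈ univ.erase (∅ : Finset ι),
      1 / (qq q S : ℝ) ^ 2 * (((12 : ℝ) ^ 6 ^ D) ^ S.card * √(qq q S)) ≤ 1 / 8)
    {f : Om D → (∀ i, V i) → ℝ} (hf : ∀ ω, Glob q (M ^ 2) (f ω))
    (h0 : ∀ (ω : Om D) (S W : Finset ι) (s : ∀ i, V i), S.Nonempty → W ⊆ S → (qq q S : ℝ) ≤ Z →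
      (Lam ν fun _ => proj (low q S (Z ^ 2)) (res W s (f ω))) ≤ Y * √(qq q S))
    (hnf : |Local.Lam (tens nf) fun ω => proj (low q ∅ (lev D (Z ^ 2) M ω)) (f ω)| ≤ Y / 8) :
    |Lam ν fun ω => proj (low q ∅ (Z ^ 2)) (f ω)| ≤ Y / 2 := by
  have hZ2 : Z ≤ Z ^ 2 := by nlinarith
  have hl1 : ∀ ω, Z ^ 2 ≤ lev D (Z ^ 2) M ω := fun ω => by unfold lev; split_ifs <;> linarith
  have hl2 : ∀ ω, lev D (Z ^ 2) M ω ≤ M := fun ω => by unfold lev; split_ifs <;> linarith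
  set y₁ : Om D → ℝ := fun ω => if ω = ptA D then M else Z ^ 2 with hy₁
  have r1 := raise hq (by linarith) hT2 hZ hf (fun _ => Z ^ 2) y₁ (ptA D)
    (fun ω h => by simp [hy₁, h]) (fun ω => by simp only [hy₁]; split_ifs <;> linarith) hZ2
    (by simp [hy₁, hM])
  have r2 := raise hq (by linarith) hT2 hZ hf y₁ (lev D (Z ^ 2) M) (ptB D)
    (fun ω h => by simp [hy₁, lev, h]) hl2 (by simp only [hy₁]; split_ifs <;> linarith)
    (by simp only [hy₁, lev, or_true, if_true]; split_ifs <;> linarith)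
  set g : Om D → (∀ i, V i) → ℝ := fun ω => proj (low q ∅ (lev D (Z ^ 2) M ω)) (f ω) with hg
  have e := Lam_incl_excl ν nf g
  rw [← add_sum_erase _ _ (mem_univ ∅)] at e
  have e0 : mix ν nf ∅ = ν := by funext i; simp [mix]
  rw [e0] at e
  have hb : |∑ S ∈ univ.erase (∅ : Finset ι), Local.Lam (tens (mix ν nf S)) g| ≤ Y / 8 := by
    refine (abs_sum_le_sum_abs _ _).trans ?_
    refine le_trans ?_ ((mul_le_mul_of_nonneg_left hsum hY).trans (le_of_eq (by ring)))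
    rw [mul_sum]
    refine sum_le_sum fun S hS => ?_
    have hS' : S.Nonempty := nonempty_iff_ne_empty.2 (ne_of_mem_erase hS)
    refine (abs_Lam_mix_le hν hs hβ S g (by positivity) fun s =>
      fibre_le hD hν hq hZ hY hl1 hl2 hT1 (fun g ω₀ h1 h2 => (hT2 g ω₀ h1 h2).trans (by linarith))
        hf hS' (fun ω W s => h0 ω S W s hS') s).trans (le_of_eq (by ring))
  rw [e] at hnf
  have := abs_le.1 r1
  have := abs_le.1 r2
  have := abs_le.1 hb
  have := abs_le.1 hnf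
  rw [abs_le]
  constructor <;> linarith

end Law

end Crest.Agent.N41.Step
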