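import Crest.Agent.N41.Defs

/-!
# Row 41, module B5: the levels of the raised tuple and the statement of the `nf` term
-/

set_option autoImplicit false

namespace Crest.Agent.N41.Step

open Finset
open scoped BigOperators
open Local (Om ptA ptB tens)
open ES (proj qq)

/-- the cut-off at the point `ω`: `Y` at the two distinguished points, `y` elsewhere -/
noncomputable def lev (D : ℕ) (y Y : ℝ) (ω : Om D) : ℝ :=
  if ω = ptA D ∨ ω = ptB D then Y else y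

/-- **B5b** (the term of the product of the parts `nf`) -/
def NFStmt : Prop :=
  ∀ (D K : ℕ) (κ : ℝ), 1 ≤ D → 0 < κ →
    ∀ (ι : Type) [Fintype ι] [DecidableEq ι] (V : ι → Type) [∀ i, AddCommGroup (V i)]
      [∀ i, Fintype (V i)] [∀ i, DecidableEq (V i)] (q : ι → ℕ) (ρ β : ι → ℝ)
      (ν nf : ∀ i, (Om D → V i) → ℝ) (kap : ∀ i, V i → ℝ) (Z : ℝ) (f : Om D → (∀ i, V i) → ℝ),
      2 ≤ Z → (∀ i, 2 ≤ q i) → Function.Injective (qq q) → (∀ i, Fintype.card (V i) ≤ q i) →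
      (∀ i, Law (ν i) (ρ i)) → (∀ i, 0 ≤ ρ i ∧ ρ i ≤ (q i : ℝ) ^ (-κ)) →
      (∀ i, Split (ν i) (nf i) (kap i) (ρ i) (β i)) →
      (∀ ω, Glob q (Z ^ (K + 2 * 6 ^ D)) (f ω)) →
      (∀ (T : Finset ι) (sa sb : ∀ i, V i), (qq q T : ℝ) ≤ Z ^ (2 * 6 ^ D) →
        |𝔼 x, 𝔼 y, (f (ptA D) x * ind T sa x) * (f (ptB D) y * ind T sb y) *
          proj (low q ∅ (Z ^ K)) (fun z => ∏ i, kap i (z i)) (y - x)| ≤ (Z ^ K) ^ (-κ)) →
      |Local.Lam (tens nf) fun ω =>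
        proj (low q ∅ (lev D (Z ^ 2) (Z ^ (K + 2 * 6 ^ D)) ω)) (f ω)| ≤
        Z ^ (20 * 6 ^ D) * (Z ^ K) ^ (-κ)

end Crest.Agent.N41.Step
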