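import Crest.Agent.N41.Step.NFConv
import Crest.Agent.N41.Local.Norm

/-!
# Row 41, module B5b: the term of the product of the parts `nf`
-/

set_option autoImplicit false

namespace Crest.Agent.N41.Step

open Finset
open scoped BigOperators
open Local (Om ptA ptB tens)
open ES (avg es proj res qq DepOn)

namespace NF

section Pair

variable {D : ℕ} {ι : Type} [Fintype ι] [DecidableEq ι] {V : ι → Type} [∀ i, AddCommGroup (V i)]
  [∀ i, Fintype (V i)] [∀ i, DecidableEq (V i)]

/-- the pair law of the product weight -/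
lemma pair_tens {nf : ∀ i, (Om D → V i) → ℝ} {κ : ∀ i, V i → ℝ} {m : ι → ℝ} {a b : Om D}
    (h : ∀ i (u v : V i → ℝ),
      ∑ x, nf i x * (u (x a) * v (x b)) = m i * 𝔼 s, 𝔼 t, u s * v t * κ i (t - s))
    (u v : (∀ i, V i) → ℝ) :
    ∑ x, tens nf x * (u (x a) * v (x b)) = (∏ i, m i) * Bk (fun z => ∏ i, κ i (z i)) u v := by
  have hd : ∀ (s y : ∀ i, V i), (if y = s then (1 : ℝ) else 0) = ∏ i, if y i = s i then 1 else 0 :=
    fun s y => by
      rw [prod_boole]; simp [funext_iff]
  have h1 : ∀ x : Om D → ∀ i, V i, tens nf x * (u (x a) * v (x b)) = ∑ s, ∑ t, u s * v t *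
      ∏ i, nf i (fun c => x c i) *
        ((if x a i = s i then 1 else 0) * if x b i = t i then 1 else 0) := fun x => by
    simp only [prod_mul_distrib, ← hd]
    simp only [mul_ite, mul_one, mul_zero]
    rw [sum_eq_single (x a) (fun s _ hs => by simp [hs.symm]) (by simp),
      sum_eq_single (x b) (fun s _ hs => by simp [hs.symm]) (by simp)]
    simp [tens]; ring
  have h2 : ∀ (i : ι) (s t : V i), ∑ y : Om D → V i, nf i y *
      ((if y a = s then 1 else 0) * if y b = t then 1 else 0) =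
      m i * (κ i (t - s) / (Fintype.card (V i) : ℝ) ^ 2) := fun i s t => by
    rw [h i (fun z => if z = s then 1 else 0) fun z => if z = t then 1 else 0]
    congr 1
    simp only [Fintype.expect_eq_sum_div_card, mul_ite, mul_one, mul_zero, ite_mul, zero_mul,
      one_mul, sum_ite_eq', mem_univ, if_true]
    rw [← sum_div]
    simp only [sum_ite_eq', mem_univ, if_true]
    rw [div_div, sq]
  simp only [h1]
  rw [sum_comm]
  unfold Bk
  simp only [Fintype.expect_eq_sum_div_card, sum_div, mul_sum]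
  refine sum_congr rfl fun s _ => ?_
  rw [sum_comm]
  refine sum_congr rfl fun t _ => ?_
  rw [← mul_sum, Local.sum_tens_prod fun i y => nf i y *
    ((if y a = s i then 1 else 0) * if y b = t i then 1 else 0)]
  simp only [h2, prod_mul_distrib, prod_div_distrib, Fintype.card_pi, Nat.cast_prod, prod_pow,
    Pi.sub_apply]
  ring

omit [∀ i, AddCommGroup (V i)] [∀ i, DecidableEq (V i)] in
/-- independence of disjoint blocks of coordinates under a product weight -/
lemma indep_tens (nf : ∀ i, (Om D → V i) → ℝ) (T : Finset ι) (A C : (Om D → ∀ i, V i) → ℝ)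
    (hA : ∀ x y : Om D → ∀ i, V i, A (fun c => T.piecewise (x c) (y c)) = A x)
    (hC : ∀ x y : Om D → ∀ i, V i, C (fun c => T.piecewise (x c) (y c)) = C y) :
    (∑ x, tens nf x * (A x * C x)) * ∑ x, tens nf x =
      (∑ x, tens nf x * A x) * ∑ x, tens nf x * C x := by
  rw [sum_mul_sum, sum_mul_sum, ← sum_product', ← sum_product', univ_product_univ]
  have hinv : Function.Involutive fun p : (Om D → ∀ i, V i) × (Om D → ∀ i, V i) =>
      ((fun c => T.piecewise (p.1 c) (p.2 c)), fun c => T.piecewise (p.2 c) (p.1 c)) := by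
    intro p
    simp only [ES.pw_pw]
  symm
  refine Fintype.sum_equiv hinv.toPerm _ _ fun p => ?_
  simp only [Function.Involutive.coe_toPerm, hA, hC]
  have : tens nf (fun c => T.piecewise (p.1 c) (p.2 c)) *
      tens nf (fun c => T.piecewise (p.2 c) (p.1 c)) = tens nf p.1 * tens nf p.2 := by
    unfold tens
    rw [← prod_mul_distrib, ← prod_mul_distrib]
    refine prod_congr rfl fun i _ => ?_
    by_cases hi : i ∈ T
    · simp [Finset.piecewise, hi]
    · simp [Finset.piecewise, hi, mul_comm]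
  linear_combination (-(A p.1 * C p.2)) * this

omit [∀ i, AddCommGroup (V i)] [∀ i, Fintype (V i)] in
lemma mul_ind (T : Finset ι) (s x : ∀ i, V i) (u : (∀ i, V i) → ℝ) :
    u x * ind T s x = res T s u x * ind T s x := by
  unfold ind res
  split_ifs with h
  · congr 2
    funext i
    by_cases hi : i ∈ T
    · simp [Finset.piecewise, hi, h i hi]
    · simp [Finset.piecewise, hi]
  · simp

/-- one fibre -/
lemma fibre_le {nf : ∀ i, (Om D → V i) → ℝ} (h0 : ∀ i x, 0 ≤ nf i x) {a b : Om D} (T : Finset ι)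
    (sa sb : ∀ i, V i) (u v : (∀ i, V i) → ℝ) {H : (Om D → ∀ i, V i) → ℝ} {B : ℝ}
    (hH : ∀ x y : Om D → ∀ i, V i, H (fun c => T.piecewise (x c) (y c)) = H x)
    (hB : ∀ x, |H x| ≤ B) :
    |∑ x, tens nf x * ((u (x a) * ind T sa (x a)) * (v (x b) * ind T sb (x b)) * H x)| ≤
      B * |∑ x, tens nf x * ((u (x a) * ind T sa (x a)) * (v (x b) * ind T sb (x b)))| := by
  have hN : ∀ x, 0 ≤ tens nf x := fun x => prod_nonneg fun i _ => h0 i _
  have hB0 : 0 ≤ B := (abs_nonneg _).trans (hB 0)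
  rcases (sum_nonneg fun x (_ : x ∈ univ) => hN x).eq_or_lt with hM | hM
  · have hz : ∀ x, tens nf x = 0 := fun x =>
      (sum_eq_zero_iff_of_nonneg fun x _ => hN x).1 hM.symm x (mem_univ x)
    simp [hz]
  set I : (Om D → ∀ i, V i) → ℝ := fun x => ind T sa (x a) * ind T sb (x b) with hI
  set C : (Om D → ∀ i, V i) → ℝ := fun x => res T sa u (x a) * res T sb v (x b) with hC
  have hind : ∀ s x y : ∀ i, V i, ind T s (T.piecewise x y) = ind T s x := fun s x y =>
    ES.depOn_ind T s _ _ fun i hi => by simp [Finset.piecewise, hi]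
  have hres : ∀ (s x y : ∀ i, V i) (w : (∀ i, V i) → ℝ),
      res T s w (T.piecewise x y) = res T s w y := fun s x y w =>
    ES.depOn_res T s w _ _ fun i hi => by simp [Finset.piecewise, mem_compl.1 hi]
  have hC' : ∀ x y : Om D → ∀ i, V i, C (fun c => T.piecewise (x c) (y c)) = C y := fun x y => by
    simp only [hC, hres]
  have h1 := indep_tens nf T (fun x => I x * H x) C (fun x y => by simp only [hI, hind, hH]) hC'
  have h2 := indep_tens nf T I C (fun x y => by simp only [hI, hind]) hC'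
  have h3 : |∑ x, tens nf x * (I x * H x)| ≤ B * |∑ x, tens nf x * I x| := by
    have hI0 : ∀ x, 0 ≤ I x := fun x => mul_nonneg (ES.ind_nonneg _ _ _) (ES.ind_nonneg _ _ _)
    rw [abs_of_nonneg (sum_nonneg fun x _ => mul_nonneg (hN x) (hI0 x)), mul_sum]
    refine (abs_sum_le_sum_abs _ _).trans (sum_le_sum fun x _ => ?_)
    rw [abs_mul, abs_mul, abs_of_nonneg (hN x), abs_of_nonneg (hI0 x)]
    nlinarith [mul_le_mul_of_nonneg_left (hB x) (mul_nonneg (hN x) (hI0 x))]
  have e1 : ∑ x, tens nf x * ((u (x a) * ind T sa (x a)) * (v (x b) * ind T sb (x b)) * H x) =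
      ∑ x, tens nf x * (I x * H x * C x) := sum_congr rfl fun x _ => by
    rw [mul_ind T sa, mul_ind T sb]; simp only [hI, hC]; ring
  have e2 : ∑ x, tens nf x * ((u (x a) * ind T sa (x a)) * (v (x b) * ind T sb (x b))) =
      ∑ x, tens nf x * (I x * C x) := sum_congr rfl fun x _ => by
    rw [mul_ind T sa, mul_ind T sb]; simp only [hI, hC]; ring
  rw [e1, e2]
  refine le_of_mul_le_mul_right ?_ hM
  rw [← abs_of_pos hM, ← abs_mul, mul_assoc, ← abs_mul, h1, h2, abs_mul, abs_mul, ← mul_assoc]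
  exact mul_le_mul_of_nonneg_right h3 (abs_nonneg _)

/-- representatives of the configurations on `T` -/
noncomputable def rep (V : ι → Type) [∀ i, AddCommGroup (V i)] [∀ i, Fintype (V i)]
    (T : Finset ι) : Finset (∀ i, V i) :=
  Fintype.piFinset fun i => if i ∈ T then univ else {0}

lemma sum_ind (T : Finset ι) (x : ∀ i, V i) : ∑ s ∈ rep V T, ind T s x = 1 := by
  simp only [ES.ind_eq_prod]
  unfold rep
  rw [← prod_univ_sum (fun i => if i ∈ T then (univ : Finset (V i)) else {0})
    fun i t => if i ∈ T then (if x i = t then (1 : ℝ) else 0) else 1]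
  refine prod_eq_one fun i _ => ?_
  by_cases hi : i ∈ T <;> simp [hi]

omit [∀ i, DecidableEq (V i)] in
lemma card_rep_le {q : ι → ℕ} (hV : ∀ i, Fintype.card (V i) ≤ q i) (T : Finset ι) :
    (rep V T).card ≤ qq q T := by
  unfold rep qq
  rw [Fintype.card_piFinset, ← prod_ite_mem_eq T]
  refine prod_le_prod' fun i _ => ?_
  by_cases hi : i ∈ T <;> simp [hi, hV i]

/-- reduction to the fibres -/
lemma fibres_le {nf : ∀ i, (Om D → V i) → ℝ} (h0 : ∀ i x, 0 ≤ nf i x) {a b : Om D}
    {q : ι → ℕ} (hV : ∀ i, Fintype.card (V i) ≤ q i) (T : Finset ι)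
    (u v : (∀ i, V i) → ℝ) {H : (Om D → ∀ i, V i) → ℝ} {B ε : ℝ}
    (hH : ∀ x y : Om D → ∀ i, V i, H (fun c => T.piecewise (x c) (y c)) = H x)
    (hB : ∀ x, |H x| ≤ B) (hε : 0 ≤ ε)
    (h : ∀ sa sb, |∑ x, tens nf x * ((u (x a) * ind T sa (x a)) * (v (x b) * ind T sb (x b)))| ≤ ε) :
    |∑ x, tens nf x * (u (x a) * v (x b) * H x)| ≤ (qq q T : ℝ) ^ 2 * (B * ε) := by
  have hB0 : 0 ≤ B := (abs_nonneg _).trans (hB 0)
  have e : ∑ x, tens nf x * (u (x a) * v (x b) * H x) = ∑ sa ∈ rep V T, ∑ sb ∈ rep V T,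
      ∑ x, tens nf x * ((u (x a) * ind T sa (x a)) * (v (x b) * ind T sb (x b)) * H x) := by
    symm
    simp only [sum_comm (s := rep V T) (t := univ)]
    refine sum_congr rfl fun x _ => ?_
    simp only [← mul_sum, ← sum_mul, sum_ind, mul_one]
  have hc : ((rep V T).card : ℝ) ≤ qq q T := by exact_mod_cast card_rep_le hV T
  rw [e]
  refine (abs_sum_le_sum_abs _ _).trans ?_
  refine (sum_le_card_nsmul _ _ ((rep V T).card • (B * ε)) fun sa _ => ?_).trans ?_
  · refine (abs_sum_le_sum_abs _ _).trans (sum_le_card_nsmul _ _ _ fun sb _ => ?_)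
    exact (fibre_le h0 T sa sb u v hH hB).trans (mul_le_mul_of_nonneg_left (h sa sb) hB0)
  · rw [nsmul_eq_mul, nsmul_eq_mul, ← mul_assoc, sq]
    have := mul_nonneg hB0 hε
    gcongr

omit [∀ i, AddCommGroup (V i)] in
/-- the truncation is invisible to the low part after restriction to a fibre -/
lemma proj_low_mul_ind [∀ i, Nonempty (V i)] {q : ι → ℕ} (hq : ∀ i, 1 ≤ q i) {y y' : ℝ}
    (T : Finset ι) (hT : (qq q T : ℝ) ≤ y') (s : ∀ i, V i) (f : (∀ i, V i) → ℝ) :
    proj (low q ∅ y) (fun x => proj (low q ∅ (y * y')) f x * ind T s x) =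
      proj (low q ∅ y) fun x => f x * ind T s x := by
  have h1 : (fun x => f x * ind T s x) = fun x => proj (low q ∅ (y * y')) f x * ind T s x +
      ∑ U ∈ (low q ∅ (y * y'))ᶜ, es U f x * ind T s x := by
    funext x
    rw [← sum_mul, ← add_mul, proj, sum_add_sum_compl, ES.sum_es]
  rw [h1, ES.proj_add, ES.proj_sum]
  funext x
  rw [left_eq_add]
  refine sum_eq_zero fun U hU => sum_eq_zero fun W hW => ?_
  have hU' : y * y' < qq q U := by simpa [ES.mem_low] using hU
  have hW' : (qq q W : ℝ) ≤ y := (ES.mem_low.1 hW).2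
  have hn : ¬ U ⊆ W ∪ T := fun hsub => by
    have h2 : (qq q U : ℝ) ≤ qq q W * qq q T := by
      exact_mod_cast (ES.qq_mono hq hsub).trans (ES.qq_union_le hq W T)
    have h3 : (qq q W : ℝ) * qq q T ≤ y * y' :=
      mul_le_mul hW' hT (Nat.cast_nonneg _) ((Nat.cast_nonneg _).trans hW')
    linarith
  obtain ⟨i, hiU, hi⟩ := not_subset.1 hn
  rw [mem_union, not_or] at hi
  have h4 := ES.avg_es {i} W fun x => es U f x * ind T s x
  rw [if_pos (disjoint_singleton_right.2 hi.1), ES.avg_es_comm,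
    ES.avg_mul_right (ES.depOn_ind T s) (disjoint_singleton_right.2 hi.2),
    ES.avg_single_es hiU] at h4
  rw [← h4]
  simp [ES.es_zero]

end Pair

lemma ptA_ne_ptB {D : ℕ} (hD : 1 ≤ D) : ptA D ≠ ptB D := fun h => by
  have := congrFun h ⟨0, hD⟩
  simp [ptA, ptB] at this

end NF

open NF in
/-- **B5b** -/
theorem nf : NFStmt := by
  intro D K κ hD hκ ι _ _ V _ _ _ q ρ β ν nf kap Z f hZ hq hinj hV hν hρ hs hf hpair
  classical
  set r := 6 ^ D with hr
  have hr1 : 1 ≤ r := Nat.one_le_pow _ _ (by norm_num)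
  have hZ1 : 1 ≤ Z := by linarith
  have hq1 : ∀ i, 1 ≤ q i := fun i => le_trans (by norm_num) (hq i)
  set η := (Z ^ K) ^ (-κ) with hη
  have hη0 : 0 ≤ η := by positivity
  set a := ptA D with ha
  set b := ptB D with hb
  have hab : a ≠ b := ptA_ne_ptB hD
  set Y := Z ^ (K + 2 * r) with hY
  set k : (∀ i, V i) → ℝ := fun z => ∏ i, kap i (z i) with hk
  choose m hm0 hm1 hm using fun i => (hs i).pair
  have hZY : Z ^ 2 ≤ Y := pow_le_pow_right₀ hZ1 (by omega)
  have h1Y : (1 : ℝ) ≤ Y := one_le_pow₀ hZ1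
  -- the correlation of the two distinguished points on a fibre
  have hcor : ∀ T : Finset ι, (qq q T : ℝ) ≤ Z ^ (2 * r) → ∀ sa sb : ∀ i, V i,
      |∑ x, tens nf x * ((proj (low q ∅ Y) (f a) (x a) * ind T sa (x a)) *
        (proj (low q ∅ Y) (f b) (x b) * ind T sb (x b)))| ≤ 5 * η := fun T hT sa sb => by
    rw [pair_tens hm (fun z => proj (low q ∅ Y) (f a) z * ind T sa z)
      fun z => proj (low q ∅ Y) (f b) z * ind T sb z, abs_mul,
      abs_of_nonneg (prod_nonneg fun i _ => hm0 i)]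
    refine le_trans (mul_le_of_le_one_left (abs_nonneg _)
      (prod_le_one (fun i _ => hm0 i) fun i _ => hm1 i)) ?_
    rw [Bk_split (low q ∅ (Z ^ K))]
    refine (abs_add_le _ _).trans ?_
    have hlow : |Bk (proj (low q ∅ (Z ^ K)) k) (fun z => proj (low q ∅ Y) (f a) z * ind T sa z)
        fun z => proj (low q ∅ Y) (f b) z * ind T sb z| ≤ η := by
      rw [Bk_proj_both, hY, pow_add, proj_low_mul_ind hq1 T hT, proj_low_mul_ind hq1 T hT,
        ← Bk_proj_both]
      exact hpair T sa sb hT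
    have hL2 : ∀ (ω : Om D) (s : ∀ i, V i),
        𝔼 z, (proj (low q ∅ Y) (f ω) z * ind T s z) ^ 2 ≤ 4 := fun ω s => by
      have h4 := (hf ω).bes ∅ s (low q ∅ Y) (by simpa using h1Y) fun U hU => ES.mem_low.1 hU
      rw [ES.res_empty] at h4
      refine le_trans (expect_le_expect fun z _ => ?_) h4
      rw [mul_pow]
      exact mul_le_of_le_one_right (sq_nonneg _)
        (pow_le_one₀ (ES.ind_nonneg _ _ _) (ES.ind_le_one _ _ _))
    have hhigh := abs_Bk_proj_le (fun i => (hs i).kap_nonneg) (fun i => (hs i).kap_mean)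
      (fun i => (hs i).op) (low q ∅ (Z ^ K))ᶜ hη0 (fun U hU => by
        have hU' : Z ^ K < qq q U := by simpa [ES.mem_low] using hU
        rw [prod_pow]
        refine pow_le_pow_left₀ (prod_nonneg fun i _ => (hρ i).1) ?_ 2
        refine (prod_le_prod (fun i _ => (hρ i).1) fun i _ => (hρ i).2).trans ?_
        rw [Real.finsetProd_rpow _ _ (fun i _ => Nat.cast_nonneg _), ← Nat.cast_prod]
        exact Real.rpow_le_rpow_of_nonpos (by positivity) hU'.le (by linarith))
      (fun z => proj (low q ∅ Y) (f a) z * ind T sa z)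
      fun z => proj (low q ∅ Y) (f b) z * ind T sb z
    have := hL2 a sa
    have := hL2 b sb
    nlinarith
  -- expansion of the other points
  set s : Om D → Finset (Finset ι) := fun c => if c = a ∨ c = b then {∅} else low q ∅ (Z ^ 2)
    with hsdef
  set g : Om D → Finset ι → (∀ i, V i) → ℝ := fun c T =>
    if c = a ∨ c = b then proj (low q ∅ Y) (f c) else es T (f c) with hg
  have e1 : (fun ω => proj (low q ∅ (lev D (Z ^ 2) Y ω)) (f ω)) =
      fun c v => ∑ T ∈ s c, g c T v := by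
    funext c v
    by_cases hc : c = a ∨ c = b
    · simp only [lev, hsdef, hg, ← ha, ← hb, if_pos hc, sum_singleton]
    · simp only [lev, hsdef, hg, ← ha, ← hb, if_neg hc, proj]
  have hZ2 : (1 : ℝ) ≤ Z ^ 2 := one_le_pow₀ hZ1
  have hsq : ∀ c, ∀ T ∈ s c, (qq q T : ℝ) ≤ Z ^ 2 := fun c T hT => by
    by_cases hc : c = a ∨ c = b
    · simp only [hsdef, if_pos hc, mem_singleton] at hT
      simpa [hT] using hZ2
    · simp only [hsdef, if_neg hc] at hT
      exact (ES.mem_low.1 hT).2
  have hcard : ((Fintype.piFinset s).card : ℝ) ≤ Z ^ (2 * r) := by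
    rw [Fintype.card_piFinset, Nat.cast_prod, pow_mul, hr, ← Local.card_Om, ← card_univ,
      ← prod_const]
    exact prod_le_prod (fun _ _ => Nat.cast_nonneg _) fun c _ =>
      ES.card_le_of_qq_le hq1 hinj (by positivity) (hsq c)
  have hterm : ∀ φ ∈ Fintype.piFinset s, |Local.Lam (tens nf) fun c => g c (φ c)| ≤
      (Z ^ (2 * r)) ^ 2 * ((4 * Z ^ 2) ^ r * (5 * η)) := fun φ hφ => by
    rw [Fintype.mem_piFinset] at hφ
    set T := univ.biUnion φ with hT
    have hqT : (qq q T : ℝ) ≤ Z ^ (2 * r) := by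
      have h1 : ∀ t : Finset (Om D), qq q (t.biUnion φ) ≤ ∏ c ∈ t, qq q (φ c) := fun t => by
        induction t using Finset.induction_on with
        | empty => simp
        | insert c t hc ih =>
          rw [biUnion_insert, prod_insert hc]
          exact (ES.qq_union_le hq1 _ _).trans (Nat.mul_le_mul_left _ ih)
      have h2 : (qq q T : ℝ) ≤ ∏ c, (qq q (φ c) : ℝ) := by exact_mod_cast h1 univ
      refine h2.trans ?_
      rw [pow_mul, hr, ← Local.card_Om, ← card_univ, ← prod_const]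
      exact prod_le_prod (fun _ _ => Nat.cast_nonneg _) fun c _ => hsq c _ (hφ c)
    set H : (Om D → ∀ i, V i) → ℝ := fun x =>
      ∏ c ∈ (univ.erase a).erase b, es (φ c) (f c) (x c) with hH
    have e2 : (Local.Lam (tens nf) fun c => g c (φ c)) = ∑ x, tens nf x *
        (proj (low q ∅ Y) (f a) (x a) * proj (low q ∅ Y) (f b) (x b) * H x) := by
      refine sum_congr rfl fun x _ => ?_
      rw [← mul_prod_erase univ _ (mem_univ a),
        ← mul_prod_erase _ _ (mem_erase.2 ⟨hab.symm, mem_univ b⟩), ← mul_assoc (g a _ _)]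
      congr 2
      · simp [hg]
      · refine prod_congr rfl fun c hc => ?_
        simp only [mem_erase] at hc
        simp only [hg, if_neg (not_or.2 ⟨hc.2.1, hc.1⟩)]
    have hHB : ∀ x, |H x| ≤ (4 * Z ^ 2) ^ r := fun x => by
      rw [hH, abs_prod]
      have h1 : ∀ c, |es (φ c) (f c) (x c)| ≤ 4 * Z ^ 2 := fun c => by
        refine ((hf c).abs_es_le hq1 ((hsq c _ (hφ c)).trans hZY) _).trans ?_
        have h2 : (2 : ℝ) ^ (φ c).card ≤ qq q (φ c) := by
          exact_mod_cast ES.pow_card_le_qq hq (φ c)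
        linarith [hsq c _ (hφ c)]
      refine (prod_le_prod (fun _ _ => abs_nonneg _) fun c _ => h1 c).trans ?_
      rw [prod_const]
      refine pow_le_pow_right₀ (by linarith) ?_
      rw [hr, ← Local.card_Om]
      exact card_le_univ _
    rw [e2]
    refine (fibres_le (fun i => (hs i).nf_nonneg) hV T _ _ (fun x y => ?_) hHB (by positivity)
      (hcor T hqT)).trans ?_
    · refine prod_congr rfl fun c _ => ES.depOn_es _ _ _ _ fun i hi => ?_
      have : i ∈ T := mem_biUnion.2 ⟨c, mem_univ c, hi⟩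
      simp [Finset.piecewise, this]
    · gcongr
  rw [e1, Local.Lam_sum]
  refine (abs_sum_le_sum_abs _ _).trans ((sum_le_card_nsmul _ _ _ hterm).trans ?_)
  rw [nsmul_eq_mul]
  have h4 : (4 * Z ^ 2) ^ r ≤ Z ^ (4 * r) := by
    rw [pow_mul]
    have : 4 ≤ Z ^ 2 := by nlinarith
    exact pow_le_pow_left₀ (by positivity) (by nlinarith) r
  have h5 : (5 : ℝ) ≤ Z ^ (3 * r) :=
    le_trans (by nlinarith) (pow_le_pow_right₀ hZ1 (by omega : 3 ≤ 3 * r))
  calc _ ≤ Z ^ (2 * r) * ((Z ^ (2 * r)) ^ 2 * (Z ^ (4 * r) * (Z ^ (3 * r) * η))) := by gcongr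
    _ = Z ^ (13 * r) * η := by ring
    _ ≤ Z ^ (20 * r) * η := by
      gcongr
      norm_num

end Crest.Agent.N41.Step
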