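import Crest.Agent.N41.ES.Lift
import Crest.Agent.N41.Step.Defs

/-!
# Row 41, module B5b: the bilinear form of a convolution kernel on the product group
-/

set_option autoImplicit false

namespace Crest.Agent.N41.Step.NF

open Finset
open scoped BigOperators
open ES (avg es proj res qq DepOn)

variable {ι : Type} [Fintype ι] [DecidableEq ι] {V : ι → Type} [∀ i, AddCommGroup (V i)]
  [∀ i, Fintype (V i)]

/-- the bilinear form of the kernel `k (y - x)` -/
noncomputable def Bk (k u v : (∀ i, V i) → ℝ) : ℝ := 𝔼 x, 𝔼 y, u x * v y * k (y - x)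

lemma expect_shift (y : ∀ i, V i) (φ : (∀ i, V i) → ℝ) : 𝔼 x, φ (y - x) = 𝔼 x, φ x :=
  Fintype.expect_equiv (Equiv.subLeft y) _ _ fun _ => rfl

lemma expect_shift' (x : ∀ i, V i) (φ : (∀ i, V i) → ℝ) : 𝔼 y, φ (y - x) = 𝔼 y, φ y :=
  Fintype.expect_equiv (Equiv.subRight x) _ _ fun _ => rfl

lemma avg_sub_left (S : Finset ι) (k : (∀ i, V i) → ℝ) (y : ∀ i, V i) :
    avg S (fun x => k (y - x)) = fun x => avg S k (y - x) := by
  funext x
  unfold avg
  rw [← expect_shift y fun z => k (S.piecewise z (y - x))]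
  refine expect_congr rfl fun z _ => congrArg k ?_
  funext i
  by_cases h : i ∈ S <;> simp [Finset.piecewise, h]

lemma avg_sub_right (S : Finset ι) (k : (∀ i, V i) → ℝ) (x : ∀ i, V i) :
    avg S (fun y => k (y - x)) = fun y => avg S k (y - x) := by
  funext y
  unfold avg
  rw [← expect_shift' x fun z => k (S.piecewise z (y - x))]
  refine expect_congr rfl fun z _ => congrArg k ?_
  funext i
  by_cases h : i ∈ S <;> simp [Finset.piecewise, h]

lemma proj_sub_left (F : Finset (Finset ι)) (k : (∀ i, V i) → ℝ) (y : ∀ i, V i) :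
    proj F (fun x => k (y - x)) = fun x => proj F k (y - x) := by
  funext x; simp only [proj, es, avg_sub_left]

lemma proj_sub_right (F : Finset (Finset ι)) (k : (∀ i, V i) → ℝ) (x : ∀ i, V i) :
    proj F (fun y => k (y - x)) = fun y => proj F k (y - x) := by
  funext y; simp only [proj, es, avg_sub_right]

lemma Bk_proj_left (F : Finset (Finset ι)) (k u v : (∀ i, V i) → ℝ) :
    Bk (proj F k) u v = Bk k (proj F u) v := by
  unfold Bk
  rw [expect_comm, expect_comm univ univ fun x y => proj F u x * v y * k (y - x)]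
  refine expect_congr rfl fun y _ => ?_
  have h := ES.expect_mul_proj F u fun x => k (y - x)
  rw [proj_sub_left] at h
  simp only [mul_right_comm _ (v y), ← expect_mul, h]

lemma Bk_proj_right (F : Finset (Finset ι)) (k u v : (∀ i, V i) → ℝ) :
    Bk (proj F k) u v = Bk k u (proj F v) := by
  unfold Bk
  refine expect_congr rfl fun x _ => ?_
  have h := ES.expect_mul_proj F v fun y => k (y - x)
  rw [proj_sub_right] at h
  simp only [mul_assoc, ← mul_expect, h]

lemma Bk_proj_both (F : Finset (Finset ι)) (k u v : (∀ i, V i) → ℝ) :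
    Bk (proj F k) u v = Bk k (proj F u) (proj F v) := by
  conv_lhs => rw [← inter_self F, ← ES.proj_proj, Bk_proj_left, Bk_proj_right]

lemma Bk_proj_sum (F : Finset (Finset ι)) (k u v : (∀ i, V i) → ℝ) :
    Bk (proj F k) u v = ∑ T ∈ F, Bk k (es T u) (es T v) := by
  have h1 : Bk (proj F k) u v = ∑ T ∈ F, Bk (proj {T} k) u v := by
    simp only [Bk, proj, sum_singleton, mul_sum, expect_sum_comm]
  rw [h1]
  refine sum_congr rfl fun T _ => ?_
  rw [Bk_proj_both]
  congr 1 <;> funext x <;> simp [proj]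

lemma Bk_split (F : Finset (Finset ι)) (k u v : (∀ i, V i) → ℝ) :
    Bk k u v = Bk (proj F k) u v + Bk (proj Fᶜ k) u v := by
  unfold Bk
  rw [← expect_add_distrib]
  refine expect_congr rfl fun x _ => ?_
  rw [← expect_add_distrib]
  refine expect_congr rfl fun y _ => ?_
  rw [← mul_add, proj, proj, sum_add_sum_compl, ES.sum_es]

/-! ### one coordinate -/

section One
variable {W : Type} [AddCommGroup W] [Fintype W]

lemma conv_sq_le_of_opBd {κ : W → ℝ} {ρ : ℝ} (h : OpBd κ ρ) (u : W → ℝ) (hu : ∑ s, u s = 0) :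
    𝔼 t, (𝔼 s, u s * κ (t - s)) ^ 2 ≤ ρ ^ 2 * 𝔼 s, u s ^ 2 := by
  set c : W → ℝ := fun t => 𝔼 s, u s * κ (t - s) with hc
  have h1 := h u c hu
  have h2 : 𝔼 s, 𝔼 t, u s * c t * κ (t - s) = 𝔼 t, c t ^ 2 := by
    rw [expect_comm]
    refine expect_congr rfl fun t _ => ?_
    simp only [mul_right_comm _ (c t), ← expect_mul, sq]
    rfl
  rw [h2] at h1
  have h3 : 0 ≤ 𝔼 t, c t ^ 2 := expect_nonneg fun _ _ => sq_nonneg _
  have h4 : 0 ≤ ρ ^ 2 * 𝔼 s, u s ^ 2 :=
    mul_nonneg (sq_nonneg _) (expect_nonneg fun _ _ => sq_nonneg _)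
  rcases h3.eq_or_lt with h0 | h0
  · rw [← h0]; exact h4
  · exact le_of_mul_le_mul_right (by rw [← sq]; exact h1) h0

lemma conv_sq_le {κ : W → ℝ} (h0 : ∀ t, 0 ≤ κ t) (h1 : 𝔼 t, κ t = 1) (u : W → ℝ) :
    𝔼 t, (𝔼 s, u s * κ (t - s)) ^ 2 ≤ 𝔼 s, u s ^ 2 := by
  have ha : ∀ t, 𝔼 s, κ (t - s) = 1 := fun t => by
    rw [← h1]; exact Fintype.expect_equiv (Equiv.subLeft t) _ _ fun _ => rfl
  have hb : ∀ s, 𝔼 t, κ (t - s) = 1 := fun s => by
    rw [← h1]; exact Fintype.expect_equiv (Equiv.subRight s) _ _ fun _ => rfl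
  have hc : ∀ t, (𝔼 s, u s * κ (t - s)) ^ 2 ≤ 𝔼 s, u s ^ 2 * κ (t - s) := fun t => by
    have := expect_mul_sq_le_sq_mul_sq univ (fun s => u s * √(κ (t - s))) fun s => √(κ (t - s))
    simp only [mul_assoc, Real.mul_self_sqrt (h0 _), mul_pow, Real.sq_sqrt (h0 _), ha,
      mul_one] at this
    exact this
  calc _ ≤ 𝔼 t, 𝔼 s, u s ^ 2 * κ (t - s) := expect_le_expect fun t _ => hc t
    _ = 𝔼 s, u s ^ 2 := by
      rw [expect_comm]; simp only [← mul_expect, hb, mul_one]

end One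

/-! ### the tensorised operator bound -/

omit [∀ i, AddCommGroup (V i)] in
lemma expect_coord [∀ i, Nonempty (V i)] (i : ι) (φ : V i → ℝ) :
    𝔼 x : ∀ j, V j, φ (x i) = 𝔼 s, φ s := by
  have h := ES.expect_prod (V := V) (Function.update (fun _ _ => (1 : ℝ)) i φ)
  rw [← mul_prod_erase univ _ (mem_univ i), Function.update_self,
    prod_eq_one fun j hj => by simp [Function.update_of_ne (ne_of_mem_erase hj)], mul_one] at h
  rw [← h]
  refine expect_congr rfl fun x _ => ?_
  rw [← mul_prod_erase univ _ (mem_univ i), Function.update_self,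
    prod_eq_one fun j hj => by simp [Function.update_of_ne (ne_of_mem_erase hj)], mul_one]

omit [∀ i, AddCommGroup (V i)] [Fintype ι] [∀ i, Fintype (V i)] in
lemma pw_single (i : ι) (x y : ∀ j, V j) :
    ({i} : Finset ι).piecewise x y = Function.update y i (x i) := by
  funext j
  by_cases h : j = i
  · subst h; simp
  · simp [Finset.piecewise, h]

omit [∀ i, AddCommGroup (V i)] in
lemma avg_single [∀ i, Nonempty (V i)] (i : ι) (f : (∀ j, V j) → ℝ) (y : ∀ j, V j) :
    avg {i} f y = 𝔼 s, f (Function.update y i s) := by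
  unfold avg
  simp only [pw_single]
  exact expect_coord i fun s => f (Function.update y i s)

omit [∀ i, AddCommGroup (V i)] in
lemma expect_upd [∀ i, Nonempty (V i)] (i : ι) (f : (∀ j, V j) → ℝ) :
    𝔼 y, f y = 𝔼 y, 𝔼 s, f (Function.update y i s) := by
  rw [← ES.expect_avg {i} f]; simp only [avg_single]

/-- convolution in the coordinates of `S` -/
noncomputable def cv (κ : ∀ i, V i → ℝ) (S : Finset ι) (u : (∀ i, V i) → ℝ) (y : ∀ i, V i) : ℝ :=
  𝔼 x, u (S.piecewise x y) * ∏ i ∈ S, κ i (y i - x i)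

lemma cv_empty (κ : ∀ i, V i → ℝ) (u : (∀ i, V i) → ℝ) : cv κ ∅ u = u := by
  funext y; simp [cv]

lemma cv_insert (κ : ∀ i, V i → ℝ) {S : Finset ι} {i : ι} (hi : i ∉ S) (u : (∀ i, V i) → ℝ)
    (y : ∀ i, V i) :
    cv κ (insert i S) u y = 𝔼 s, cv κ S u (Function.update y i s) * κ i (y i - s) := by
  unfold cv
  rw [expect_upd i, expect_comm]
  refine expect_congr rfl fun s _ => ?_
  rw [expect_mul]
  refine expect_congr rfl fun x _ => ?_
  rw [prod_insert hi, Function.update_self]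
  have h1 : (insert i S).piecewise (Function.update x i s) y =
      S.piecewise x (Function.update y i s) := by
    funext j
    by_cases hj : j = i
    · subst hj; simp [Finset.piecewise, hi]
    · by_cases hS : j ∈ S <;> simp [Finset.piecewise, hj, hS]
  have h2 : ∏ j ∈ S, κ j (y j - Function.update x i s j) =
      ∏ j ∈ S, κ j (Function.update y i s j - x j) :=
    prod_congr rfl fun j hj => by
      have : j ≠ i := fun h => hi (h ▸ hj)
      rw [Function.update_of_ne this, Function.update_of_ne this]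
  rw [h1, h2]; ring

lemma cv_mean_zero (κ : ∀ i, V i → ℝ) {S : Finset ι} {i : ι} (hi : i ∉ S) {u : (∀ i, V i) → ℝ}
    (hu : avg {i} u = fun _ => 0) (y : ∀ i, V i) :
    ∑ s, cv κ S u (Function.update y i s) = 0 := by
  have h : 𝔼 s, cv κ S u (Function.update y i s) = 0 := by
    unfold cv
    rw [expect_comm]
    refine expect_eq_zero fun x _ => ?_
    have h1 : ∀ s, S.piecewise x (Function.update y i s) =
        Function.update (S.piecewise x y) i s := fun s => by
      funext j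
      by_cases hj : j = i
      · subst hj; simp [Finset.piecewise, hi]
      · by_cases hS : j ∈ S <;> simp [Finset.piecewise, hj, hS]
    have h2 : ∀ s, ∏ j ∈ S, κ j (Function.update y i s j - x j) = ∏ j ∈ S, κ j (y j - x j) :=
      fun s => prod_congr rfl fun j hj => by
        have : j ≠ i := fun h => hi (h ▸ hj)
        rw [Function.update_of_ne this]
    simp only [h1, h2, ← expect_mul, ← avg_single, hu, zero_mul]
  rw [Fintype.expect_eq_sum_div_card, div_eq_zero_iff] at h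
  exact h.resolve_right (by positivity)

lemma cv_sq_le {κ : ∀ i, V i → ℝ} {ρ : ι → ℝ} (h0 : ∀ i t, 0 ≤ κ i t) (h1 : ∀ i, 𝔼 t, κ i t = 1)
    (hop : ∀ i, OpBd (κ i) (ρ i)) (T : Finset ι) {u : (∀ i, V i) → ℝ}
    (hu : ∀ i ∈ T, avg {i} u = fun _ => 0) (S : Finset ι) :
    𝔼 y, cv κ S u y ^ 2 ≤ (∏ i ∈ S, if i ∈ T then ρ i ^ 2 else 1) * 𝔼 y, u y ^ 2 := by
  induction S using Finset.induction_on with
  | empty => simp [cv_empty]
  | insert i S hi ih =>
    have hc : 0 ≤ (if i ∈ T then ρ i ^ 2 else 1) := by split_ifs <;> positivity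
    rw [prod_insert hi, mul_assoc]
    refine le_trans ?_ (mul_le_mul_of_nonneg_left ih hc)
    rw [expect_upd i, expect_upd i fun y => cv κ S u y ^ 2, mul_expect]
    refine expect_le_expect fun y _ => ?_
    simp only [cv_insert κ hi, Function.update_idem, Function.update_self]
    split_ifs with hT
    · exact conv_sq_le_of_opBd (hop i) _ (cv_mean_zero κ hi (hu i hT) y)
    · rw [one_mul]; exact conv_sq_le (h0 i) (h1 i) _

lemma Bk_es_sq_le {κ : ∀ i, V i → ℝ} {ρ : ι → ℝ} (h0 : ∀ i t, 0 ≤ κ i t)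
    (h1 : ∀ i, 𝔼 t, κ i t = 1) (hop : ∀ i, OpBd (κ i) (ρ i)) (T : Finset ι)
    (u v : (∀ i, V i) → ℝ) :
    Bk (fun z => ∏ i, κ i (z i)) (es T u) v ^ 2 ≤
      (∏ i ∈ T, ρ i ^ 2) * (𝔼 y, es T u y ^ 2) * 𝔼 y, v y ^ 2 := by
  have h2 := cv_sq_le h0 h1 hop T (u := es T u) (fun i hi => ES.avg_single_es hi u) univ
  rw [prod_ite_mem, univ_inter] at h2
  have h3 : Bk (fun z => ∏ i, κ i (z i)) (es T u) v = 𝔼 y, cv κ univ (es T u) y * v y := by
    unfold Bk cv
    rw [expect_comm]
    refine expect_congr rfl fun y _ => ?_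
    rw [expect_mul]
    refine expect_congr rfl fun x _ => ?_
    rw [piecewise_univ]
    simp only [Pi.sub_apply]; ring
  rw [h3]
  exact (expect_mul_sq_le_sq_mul_sq univ _ _).trans
    (mul_le_mul_of_nonneg_right h2 (ES.expect_sq_nonneg v))

/-- the high part of the product kernel is small -/
lemma abs_Bk_proj_le {κ : ∀ i, V i → ℝ} {ρ : ι → ℝ} (h0 : ∀ i t, 0 ≤ κ i t)
    (h1 : ∀ i, 𝔼 t, κ i t = 1) (hop : ∀ i, OpBd (κ i) (ρ i)) (F : Finset (Finset ι)) {η : ℝ}
    (hη : 0 ≤ η) (hF : ∀ T ∈ F, ∏ i ∈ T, ρ i ^ 2 ≤ η ^ 2) (u v : (∀ i, V i) → ℝ) :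
    |Bk (proj F fun z => ∏ i, κ i (z i)) u v| ≤ η * ((𝔼 y, u y ^ 2) + 𝔼 y, v y ^ 2) / 2 := by
  rw [Bk_proj_sum]
  have h2 : ∀ T ∈ F, |Bk (fun z => ∏ i, κ i (z i)) (es T u) (es T v)| ≤
      η * ((𝔼 y, es T u y ^ 2) + 𝔼 y, es T v y ^ 2) / 2 := fun T hT => by
    have ha := ES.expect_sq_nonneg (es T u)
    have hb := ES.expect_sq_nonneg (es T v)
    refine abs_le_of_sq_le_sq' ?_ (by positivity) |> abs_le.2
    refine (Bk_es_sq_le h0 h1 hop T u (es T v)).trans ?_
    have h3 := mul_le_mul_of_nonneg_right (hF T hT) (mul_nonneg ha hb)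
    nlinarith [mul_nonneg (sq_nonneg η) (sq_nonneg ((𝔼 y, es T u y ^ 2) - 𝔼 y, es T v y ^ 2))]
  refine (abs_sum_le_sum_abs _ _).trans ((sum_le_sum h2).trans ?_)
  rw [← sum_div, ← mul_sum, sum_add_distrib, ← ES.parseval_proj, ← ES.parseval_proj]
  have := ES.expect_sq_proj_le F u
  have := ES.expect_sq_proj_le F v
  gcongr

end Crest.Agent.N41.Step.NF
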