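import Crest.Agent.N41.ES.Res
import Crest.Agent.N41.Local.Norm

/-!
# Row 41, module B4: tensorisation of maximal correlation, and `TailStmt`
-/

set_option autoImplicit false

namespace Crest.Agent.N41.Step

open Finset
open scoped BigOperators
open Local (Om tens)
open ES (avg es proj)

/-- the bilinear form of a kernel -/
def bf {A B : Type} [Fintype A] [Fintype B] (k : A → B → ℝ) (u : A → ℝ) (v : B → ℝ) : ℝ :=
  ∑ s, ∑ z, k s z * (u s * v z)

open Matrix in
/-- a tensor product of positive semidefinite block forms is positive semidefinite -/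
lemma psd_tens {ι : Type} [Fintype ι] [DecidableEq ι] {A B : ι → Type} [∀ i, Fintype (A i)]
    [∀ i, Fintype (B i)] (qa : ∀ i, A i → A i → ℝ) (k : ∀ i, A i → B i → ℝ)
    (qb : ∀ i, B i → B i → ℝ) (ha : ∀ i s s', qa i s s' = qa i s' s)
    (hb : ∀ i s s', qb i s s' = qb i s' s)
    (h : ∀ i u v, 0 ≤ bf (qa i) u u + 2 * bf (k i) u v + bf (qb i) v v)
    (u : (∀ i, A i) → ℝ) (v : (∀ i, B i) → ℝ) :
    0 ≤ bf (fun s s' => ∏ i, qa i (s i) (s' i)) u u + 2 * bf (fun s z => ∏ i, k i (s i) (z i)) u v +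
      bf (fun s s' => ∏ i, qb i (s i) (s' i)) v v := by
  have key : ∀ {A B : Type} [Fintype A] [Fintype B] (qa : A → A → ℝ) (k : A → B → ℝ)
      (qb : B → B → ℝ) (x : A ⊕ B → ℝ),
      star x ⬝ᵥ (fromBlocks (of qa) (of k) (of k)ᵀ (of qb) *ᵥ x) =
        bf qa (x ∘ Sum.inl) (x ∘ Sum.inl) + 2 * bf k (x ∘ Sum.inl) (x ∘ Sum.inr) +
          bf qb (x ∘ Sum.inr) (x ∘ Sum.inr) := by
    intro A B _ _ qa k qb x
    simp only [star_trivial, dotProduct, mulVec, Fintype.sum_sum_type, fromBlocks_apply₁₁,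
      fromBlocks_apply₁₂, fromBlocks_apply₂₁, fromBlocks_apply₂₂, of_apply, transpose_apply, bf,
      Function.comp, mul_add, sum_add_distrib, mul_sum, two_mul]
    rw [sum_comm (f := fun z s => x (Sum.inr z) * (k s z * x (Sum.inl s)))]
    simp only [mul_comm, mul_left_comm, mul_assoc, add_assoc]
  have h1 := Local.psd_prod univ (fun i =>
    (fromBlocks (of (qa i)) (of (k i)) (of (k i))ᵀ (of (qb i))).submatrix
      (Sum.map (fun s : ∀ i, A i => s i) fun z : ∀ i, B i => z i)
      (Sum.map (fun s : ∀ i, A i => s i) fun z : ∀ i, B i => z i)) fun i _ => by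
    refine PosSemidef.submatrix ?_ _
    refine PosSemidef.of_dotProduct_mulVec_nonneg ?_ fun x => ?_
    · ext (s | s) (t | t)
      · simpa using ha i _ _
      · simp
      · simp
      · simpa using hb i _ _
    · rw [key]; exact h i _ _
  have h2 := h1.dotProduct_mulVec_nonneg (Sum.elim u v)
  have h3 := key (fun s s' : ∀ i, A i => ∏ i, qa i (s i) (s' i))
    (fun (s : ∀ i, A i) (z : ∀ i, B i) => ∏ i, k i (s i) (z i))
    (fun s s' : ∀ i, B i => ∏ i, qb i (s i) (s' i)) (Sum.elim u v)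
  simp only [Sum.elim_comp_inl, Sum.elim_comp_inr] at h3
  rw [← h3]
  refine h2.trans (le_of_eq (congrArg (fun M => star (Sum.elim u v) ⬝ᵥ (M *ᵥ Sum.elim u v)) ?_))
  ext (s | s) (t | t) <;> simp

open Classical in
/-- the joint law of two maps -/
noncomputable def jker {Y A B : Type} [Fintype Y] (w : Y → ℝ) (a : Y → A) (b : Y → B) (s : A)
    (z : B) : ℝ := ∑ y, w y * ((if a y = s then 1 else 0) * if b y = z then 1 else 0)

lemma bf_jker {Y A B : Type} [Fintype Y] [Fintype A] [Fintype B] (w : Y → ℝ) (a : Y → A)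
    (b : Y → B) (u : A → ℝ) (v : B → ℝ) :
    bf (jker w a b) u v = ∑ y, w y * (u (a y) * v (b y)) := by
  classical
  simp only [bf, jker, sum_mul]
  rw [sum_congr rfl fun s _ => sum_comm, sum_comm]
  refine sum_congr rfl fun y _ => ?_
  simp [ite_mul]

lemma prod_jker {ι : Type} [Fintype ι] [DecidableEq ι] {Y A B : ι → Type} [∀ i, Fintype (Y i)]
    (w : ∀ i, Y i → ℝ) (a : ∀ i, Y i → A i) (b : ∀ i, Y i → B i) (s : ∀ i, A i) (z : ∀ i, B i) :
    ∏ i, jker (w i) (a i) (b i) (s i) (z i) =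
      jker (fun y : ∀ i, Y i => ∏ i, w i (y i)) (fun y i => a i (y i)) (fun y i => b i (y i))
        s z := by
  classical
  simp only [jker]
  rw [Fintype.prod_sum]
  refine sum_congr rfl fun y _ => ?_
  rw [prod_mul_distrib, prod_mul_distrib, prod_boole, prod_boole]
  simp [funext_iff]

section Noise
variable {ι : Type} [Fintype ι] [DecidableEq ι] {V : ι → Type} [∀ i, Fintype (V i)]
  [∀ i, Nonempty (V i)]

open Classical in
/-- the density of the diagonal -/
noncomputable def dl {A : Type} [Fintype A] (s t : A) : ℝ :=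
  if s = t then (Fintype.card A : ℝ) else 0

lemma dl_comm {A : Type} [Fintype A] (s t : A) : dl s t = dl t s := by
  by_cases h : s = t
  · rw [h]
  · simp [dl, h, Ne.symm h]

lemma expect_dl {A : Type} [Fintype A] [Nonempty A] (s : A) (u : A → ℝ) :
    𝔼 t, dl s t * u t = u s := by
  classical
  have hc : (Fintype.card A : ℝ) ≠ 0 := by exact_mod_cast Fintype.card_ne_zero
  rw [Fintype.expect_eq_sum_div_card, div_eq_iff hc]
  simp [dl, mul_comm]

lemma expect_prod_dl (U : Finset ι) (x : ∀ i, V i) : 𝔼 z : ∀ i, V i, ∏ i ∈ U, dl (x i) (z i) = 1 := by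
  have hc : (Fintype.card (∀ i, V i) : ℝ) ≠ 0 := by exact_mod_cast Fintype.card_ne_zero
  rw [Fintype.expect_eq_sum_div_card, div_eq_one_iff_eq hc]
  have h1 : ∀ z : ∀ i, V i, ∏ i ∈ U, dl (x i) (z i) = ∏ i, if i ∈ U then dl (x i) (z i) else 1 :=
    fun z => by rw [prod_ite_mem, univ_inter]
  simp only [h1]
  rw [← Fintype.prod_sum fun i (t : V i) => if i ∈ U then dl (x i) t else 1, Fintype.card_pi,
    Nat.cast_prod]
  refine prod_congr rfl fun i _ => ?_
  split_ifs
  · classical simp [dl]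
  · simp

lemma expect_prod_dl_mul (U : Finset ι) (x : ∀ i, V i) (h : (∀ i, V i) → ℝ) :
    𝔼 z : ∀ i, V i, (∏ i ∈ U, dl (x i) (z i)) * h z = avg Uᶜ h x := by
  rw [← ES.expect_piecewise U, ES.avg_compl_eq]
  refine expect_congr rfl fun y _ => ?_
  have h1 : ∀ z : ∀ i, V i, (∏ i ∈ U, dl (x i) (U.piecewise z y i)) * h (U.piecewise z y) =
      (∏ i ∈ U, dl (x i) (z i)) * ES.res U x h y := by
    intro z
    rw [prod_congr rfl fun i hi => by rw [piecewise_eq_of_mem _ _ _ hi]]
    by_cases hz : ∀ i ∈ U, x i = z i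
    · rw [ES.res_congr hz]; rfl
    · push Not at hz
      obtain ⟨i, hi, hz⟩ := hz
      rw [prod_eq_zero hi (by simp [dl, hz]), zero_mul, zero_mul]
  simp only [h1]
  rw [← expect_mul, expect_prod_dl, one_mul]

lemma expect_prod_dl_sub (T : Finset ι) (x : ∀ i, V i) (h : (∀ i, V i) → ℝ) :
    𝔼 z : ∀ i, V i, (∏ i ∈ T, (dl (x i) (z i) - 1)) * h z = es T h x := by
  simp only [sub_eq_add_neg, prod_add, prod_const, sum_mul]
  rw [expect_sum_comm]
  refine sum_congr rfl fun U _ => ?_
  rw [← expect_prod_dl_mul, mul_expect]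
  exact expect_congr rfl fun z _ => by ring

/-- the quadratic form of the noise operator -/
lemma expect_noise (c : ι → ℝ) (h : (∀ i, V i) → ℝ) :
    𝔼 x : ∀ i, V i, 𝔼 z : ∀ i, V i, (∏ i, (c i * (dl (x i) (z i) - 1) + 1)) * (h x * h z) =
      ∑ T : Finset ι, (∏ i ∈ T, c i) * 𝔼 x, es T h x ^ 2 := by
  simp only [prod_add, prod_const_one, mul_one, powerset_univ, sum_mul, prod_mul_distrib]
  simp only [expect_sum_comm]
  refine sum_congr rfl fun T _ => ?_
  have h1 : 𝔼 x, es T h x ^ 2 = 𝔼 x, h x * es T h x := by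
    have := ES.expect_mul_es T h (es T h)
    rw [ES.es_es, if_pos rfl] at this
    rw [this]; simp only [sq]
  rw [h1, mul_expect]
  refine expect_congr rfl fun x _ => ?_
  rw [← expect_prod_dl_sub, mul_expect, mul_expect]
  exact expect_congr rfl fun z _ => by ring

omit [∀ i, Nonempty (V i)] in
lemma bf_div_card {A : Type} [Fintype A] (k : A → A → ℝ) (u : A → ℝ) :
    bf (fun s t => k s t / (Fintype.card A : ℝ) ^ 2) u u = 𝔼 s, 𝔼 t, k s t * (u s * u t) := by
  simp only [bf, Fintype.expect_eq_sum_div_card, sum_div]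
  exact sum_congr rfl fun s _ => sum_congr rfl fun t _ => by ring

/-- **tensorisation of maximal correlation** -/
theorem tens_maxcorr {Y B : ι → Type} [∀ i, Fintype (Y i)] [∀ i, Fintype (B i)]
    (w : ∀ i, Y i → ℝ) (a : ∀ i, Y i → V i) (b : ∀ i, Y i → B i) (c : ι → ℝ)
    (hc0 : ∀ i, 0 ≤ c i) (h0 : ∀ i y, 0 ≤ w i y)
    (hm : ∀ i (g : V i → ℝ), ∑ y, w i y * g (a i y) = 𝔼 v, g v)
    (hc : ∀ i (g : V i → ℝ) (Φ : B i → ℝ), ∑ v, g v = 0 →
      (∑ y, w i y * (g (a i y) * Φ (b i y))) ^ 2 ≤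
        c i * (𝔼 v, g v ^ 2) * ∑ y, w i y * Φ (b i y) ^ 2)
    (h : (∀ i, V i) → ℝ) (Φ : (∀ i, B i) → ℝ) :
    (∑ y : ∀ i, Y i, (∏ i, w i (y i)) * (h (fun i => a i (y i)) * Φ fun i => b i (y i))) ^ 2 ≤
      (∑ T : Finset ι, (∏ i ∈ T, c i) * 𝔼 x, es T h x ^ 2) *
        ∑ y : ∀ i, Y i, (∏ i, w i (y i)) * Φ (fun i => b i (y i)) ^ 2 := by
  have key := psd_tens
    (fun i (s t : V i) => (c i * (dl s t - 1) + 1) / (Fintype.card (V i) : ℝ) ^ 2)
    (fun i => jker (w i) (a i) (b i)) (fun i => jker (w i) (b i) (b i))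
    (fun i s t => by rw [dl_comm]) (fun i s t => by simp only [jker, mul_comm])
    (fun i u v => by
      rw [bf_div_card, bf_jker, bf_jker]
      set m := 𝔼 s, u s with hmu
      set μ := ∑ y, w i y * v (b i y) with hμ
      have h1 : ∑ y, w i y = 1 := by simpa using hm i fun _ => 1
      have hg : 𝔼 s, (u s - m) = 0 := by rw [expect_sub_distrib, Fintype.expect_const, sub_self]
      have hg' : ∑ s, (u s - m) = 0 := by
        rwa [Fintype.expect_eq_sum_div_card, div_eq_zero_iff, or_iff_left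
          (by exact_mod_cast Fintype.card_ne_zero)] at hg
      have h2 := hc i (fun s => u s - m) (fun z => v z - μ) hg'
      have h3 : ∑ y, w i y * u (a i y) = m := hm i u
      have e1 : 𝔼 s, 𝔼 t, (c i * (dl s t - 1) + 1) * (u s * u t) =
          c i * (𝔼 s, (u s - m) ^ 2) + m ^ 2 := by
        have : ∀ s, 𝔼 t, (c i * (dl s t - 1) + 1) * (u s * u t) =
            c i * u s ^ 2 + (1 - c i) * m * u s := fun s => by
          rw [expect_congr rfl fun t _ => show _ = c i * u s * (dl s t * u t) +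
            (1 - c i) * u s * u t by ring, expect_add_distrib, ← mul_expect, ← mul_expect,
            expect_dl]
          ring
        simp only [this, sub_sq, expect_add_distrib, expect_sub_distrib, ← mul_expect,
          ← expect_mul, Fintype.expect_const]
        ring
      have e2 : ∑ y, w i y * ((u (a i y) - m) * (v (b i y) - μ)) =
          ∑ y, w i y * (u (a i y) * v (b i y)) - m * μ := by
        rw [sum_congr rfl fun y _ => show _ = w i y * (u (a i y) * v (b i y)) -
          μ * (w i y * u (a i y)) - m * (w i y * v (b i y)) + m * μ * w i y by ring]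
        simp only [sum_add_distrib, sum_sub_distrib, ← mul_sum, h1, h3, ← hμ]
        ring
      have e3 : ∑ y, w i y * (v (b i y) - μ) ^ 2 =
          ∑ y, w i y * (v (b i y) * v (b i y)) - μ ^ 2 := by
        rw [sum_congr rfl fun y _ => show _ = w i y * (v (b i y) * v (b i y)) -
          2 * μ * (w i y * v (b i y)) + μ ^ 2 * w i y by ring]
        simp only [sum_add_distrib, sum_sub_distrib, ← mul_sum, h1, ← hμ]
        ring
      have p1 : 0 ≤ c i * 𝔼 s, (u s - m) ^ 2 :=
        mul_nonneg (hc0 i) (expect_nonneg fun _ _ => sq_nonneg _)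
      have p2 : 0 ≤ ∑ y, w i y * (v (b i y) - μ) ^ 2 :=
        sum_nonneg fun y _ => mul_nonneg (h0 i y) (sq_nonneg _)
      have h4 := abs_le_of_sq_le_sq' (h2.trans (by nlinarith [sq_nonneg (c i * (𝔼 s, (u s - m) ^ 2)
        - ∑ y, w i y * (v (b i y) - μ) ^ 2)] : _ ≤ ((c i * (𝔼 s, (u s - m) ^ 2) +
          ∑ y, w i y * (v (b i y) - μ) ^ 2) / 2) ^ 2)) (by linarith)
      rw [e1]
      rw [e2, e3] at h4
      nlinarith [h4.1, sq_nonneg (m + μ)])
  simp only [prod_jker, bf_jker, prod_div_distrib, prod_pow, ← Nat.cast_prod, ← Fintype.card_pi,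
    bf_div_card] at key
  have := discrim_le_zero (a := ∑ T : Finset ι, (∏ i ∈ T, c i) * 𝔼 x, es T h x ^ 2)
    (b := 2 * ∑ y : ∀ i, Y i, (∏ i, w i (y i)) * (h (fun i => a i (y i)) * Φ fun i => b i (y i)))
    (c := ∑ y : ∀ i, Y i, (∏ i, w i (y i)) * Φ (fun i => b i (y i)) ^ 2) fun t => by
    refine (key (fun x => t * h x) Φ).trans (le_of_eq ?_)
    rw [← expect_noise]
    simp only [expect_mul, mul_sum, sum_mul, sq]
    congr 2
    · exact expect_congr rfl fun x _ => expect_congr rfl fun z _ => by ring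
    · exact sum_congr rfl fun y _ => by ring
  unfold discrim at this
  nlinarith

/-- the form used below: `h` is a sum of Efron–Stein parts over `F` -/
lemma sum_noise_proj_le {c : ι → ℝ} {F : Finset (Finset ι)} {e : ℝ}
    (hF : ∀ T ∈ F, ∏ i ∈ T, c i ≤ e) (f : (∀ i, V i) → ℝ) :
    ∑ T : Finset ι, (∏ i ∈ T, c i) * 𝔼 x, es T (proj F f) x ^ 2 ≤ e * 𝔼 x, proj F f x ^ 2 := by
  rw [ES.parseval (proj F f), mul_sum]
  refine sum_le_sum fun T _ => ?_
  by_cases hT : T ∈ F
  · exact mul_le_mul_of_nonneg_right (hF T hT) (ES.expect_sq_nonneg _)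
  · simp [ES.es_proj, hT]

end Noise

/-- **Module B4**. -/
theorem tail : TailStmt := by
  intro D ι _ _ V _ _ ν ρ hD hν ω₀ g f F η B hg hη hF hB hm
  set Φ : (∀ i, Om D → V i) → ℝ := fun z => ∏ c ∈ univ.erase ω₀, g c fun i => z i c with hΦ
  have h1 := tens_maxcorr (V := V) ν (fun i y => y ω₀) (fun i y => Function.update y ω₀ 0)
    (fun i => ρ i ^ 2) (fun i => sq_nonneg _) (fun i => (hν i).nonneg)
    (fun i u => by rw [Local.marginal (hν i).transl, (hν i).sum_one, one_mul])
    (fun i u Ψ hu => (hν i).maxcorr ω₀ u (fun y => Ψ (Function.update y ω₀ 0)) hu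
      fun x v => by rw [Function.update_idem]) (g ω₀) Φ
  have hΦ' : ∀ y : ∀ i, Om D → V i, Φ (fun i => Function.update (y i) ω₀ 0) =
      ∏ c ∈ univ.erase ω₀, g c fun i => y i c := fun y =>
    prod_congr rfl fun c hc => by simp only [Function.update_of_ne (ne_of_mem_erase hc)]
  simp only [hΦ'] at h1
  have tr : ∀ G : Om D → (∀ i, V i) → ℝ, Lam ν G = ∑ y : ∀ i, Om D → V i, (∏ i, ν i (y i)) *
      (G ω₀ (fun i => y i ω₀) * ∏ c ∈ univ.erase ω₀, G c fun i => y i c) := fun G => by
    rw [Lam, Local.Lam_eq_slot _ _ ω₀]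
    exact Fintype.sum_equiv (Equiv.piComm fun (_ : Om D) p => V p) _ _ fun _ => rfl
  rw [← tr g] at h1
  have hr : 6 ^ D ≠ 0 := by positivity
  have h2 : ∑ y : ∀ i, Om D → V i, (∏ i, ν i (y i)) *
      (∏ c ∈ univ.erase ω₀, g c fun i => y i c) ^ 2 ≤ B := by
    have := Local.tens_abs_Lam_le hν (Function.update (fun c v => g c v ^ 2) ω₀ fun _ => 1)
      (B := B) fun c => by
        by_cases hc : c = ω₀
        · subst hc; simpa using hB
        · rw [Function.update_of_ne hc]
          simpa only [abs_pow, sq_abs, ← pow_mul] using hm c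
    refine le_trans (le_of_eq ?_) ((le_abs_self _).trans this)
    refine Eq.trans ?_ (tr _).symm
    refine sum_congr rfl fun y _ => ?_
    rw [Function.update_self, one_mul, ← prod_pow]
    congr 1
    exact prod_congr rfl fun c hc => by rw [Function.update_of_ne (ne_of_mem_erase hc)]
  have h3 : 𝔼 x, g ω₀ x ^ 2 ≤ B := by
    have h4 : ∀ x, g ω₀ x ^ 2 ≤ (g ω₀ x ^ (2 * 6 ^ D) + (6 ^ D - 1 : ℝ)) / 6 ^ D := fun x => by
      have h5 := one_add_mul_sub_le_pow (a := g ω₀ x ^ 2) (by nlinarith [sq_nonneg (g ω₀ x)]) (6 ^ D)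
      rw [le_div_iff₀ (by positivity), pow_mul]
      push_cast at h5
      linarith
    refine (expect_le_expect fun x _ => h4 x).trans ?_
    rw [← expect_div, expect_add_distrib, Fintype.expect_const, div_le_iff₀ (by positivity)]
    have h6 : (1 : ℝ) ≤ 6 ^ D := one_le_pow₀ (by norm_num)
    nlinarith [hm ω₀]
  have h4 := sum_noise_proj_le hF f
  rw [← hg] at h4
  refine abs_le_of_sq_le_sq' (h1.trans ?_) (by positivity) |> abs_le.2
  calc _ ≤ (η ^ 2 * B) * B := by
        refine mul_le_mul (h4.trans (by gcongr)) h2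
          (sum_nonneg fun y _ => mul_nonneg (prod_nonneg fun i _ => (hν i).nonneg _) (sq_nonneg _))
          (by positivity)
    _ = _ := by ring

end Crest.Agent.N41.Step
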